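import Vale.Agent.P193.W4.Coset.Realise.Sync

/-!
P193, module W4 B, realisation: above a high level every fold of a cell is either broken below
that level or is the fold of the origin; towers with the same low placements and the same such
folds at the origin have the same low states.
-/

namespace Vale.Agent.P193.W4.Coset.Realise

open Filter

variable {k : ℕ} {em : ℕ → Option (List (Full k))} (T : Tower k em)

lemma digit_of_zs {v : Fin 3 → ℤ} {m : ℕ} {i : Fin 3} {s : Mid k} (h : T.zs v m i = some s) :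
    T.digit v m i = pos s := (sym_eq_some.1 h).symm

/-- A coordinate is given by a tile and the symbols below it. -/
lemma coord_eq {v w : Fin 3 → ℤ} {Q : ℕ} {i : Fin 3} (ht : T.tile v Q i = T.tile w Q i)
    (h : ∀ m < Q, ∃ s, T.zs v m i = some s ∧ T.zs w m i = some s) : v i = w i := by
  refine T.eq_of_digits ht fun m hm => ?_
  obtain ⟨s, h1, h2⟩ := h m hm
  rw [digit_of_zs T h1, digit_of_zs T h2]

lemma zs_merge {v w : Fin 3 → ℤ} {Q m : ℕ} {i : Fin 3} (ht : T.tile v Q i = T.tile w Q i)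
    (hm : Q ≤ m) : T.zs v m i = T.zs w m i :=
  congrArg sym (T.digit_above ht hm)

lemma zs_congr {v w : Fin 3 → ℤ} {i : Fin 3} (h : v i = w i) (m : ℕ) : T.zs v m i = T.zs w m i :=
  congrArg sym (T.digit_congr h m)

/-- A coordinate which carries symbols for ever joins every other one. -/
lemma eventually_merge {v : Fin 3 → ℤ} {i : Fin 3}
    (h : ∀ᶠ m in atTop, (T.zs v m i).isSome) (w : Fin 3 → ℤ) :
    ∀ᶠ Q in atTop, T.tile v Q i = T.tile w Q i := by
  obtain ⟨A, hA⟩ := eventually_atTop.1 h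
  let n := A + (w i - v i).natAbs
  refine eventually_atTop.2 ⟨n + 1, fun Q hQ => ?_⟩
  obtain ⟨s, hs⟩ := Option.isSome_iff_exists.1 (hA n (by omega))
  have hd : |w i - v i| ≤ (base k : ℤ) ^ n := by
    have hb : 2 ≤ base k := by unfold base; omega
    have h1 : (w i - v i).natAbs ≤ base k ^ n :=
      (Nat.le_add_left _ A).trans (Nat.lt_pow_self hb).le
    calc |w i - v i| = ((w i - v i).natAbs : ℤ) := (Int.natCast_natAbs _).symm
      _ ≤ ((base k ^ n : ℕ) : ℤ) := by exact_mod_cast h1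
      _ = (base k : ℤ) ^ n := by push_cast; rfl
  exact T.tile_above (T.separated hs hd).1.symm hQ

/-! ### What is kept above a level -/

/-- The line of kind `i` at the origin is kept at all levels from `Q`. -/
def AboveE (Q : ℕ) (i : Fin 3) : Prop := ∀ m, Q ≤ m → KeepE (T.zs 0 m) i

/-- The projection line of kind `i` at the origin is kept at all levels from `Q`. -/
def AboveP (Q : ℕ) (i : Fin 3) : Prop := ∀ m, Q ≤ m → KeepP (T.zs 0 m) i

/-- The bridge of the track `s` at the origin is kept at all levels from `Q`. -/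
def AboveB (Q : ℕ) (s : Option (Fin k)) : Prop := ∀ m, Q ≤ m → KeepB (T.zs 0 m) s

/-- The word at the origin is passed on at all levels from `Q`. -/
def AboveW (Q : ℕ) : Prop := ∀ m, Q ≤ m → KeepW (T.zs 0 m)

/-- The match at the origin is kept at all levels from `Q`. -/
def AboveH (Q : ℕ) : Prop := ∀ m, Q ≤ m → KeepH (T.zs 0 m)

/-- The cell `v` is in the tile of the origin at level `Q` on the axis `i`. -/
def Joined (v : Fin 3 → ℤ) (Q : ℕ) (i : Fin 3) : Prop := T.tile v Q i = T.tile 0 Q i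

/-- Above `n`, every fold of the cell is broken below `Q` or is that of the origin from `Q` on. -/
structure Settled (v : Fin 3 → ℤ) (n Q : ℕ) : Prop where
  le : n ≤ Q
  E : ∀ i, (∃ m, n ≤ m ∧ m < Q ∧ ¬KeepE (T.zs v m) i) ∨
    (Joined T v Q i ∧ Joined T v Q (i + 1) ∧ AboveE T Q i)
  P : ∀ i, (∃ m, n ≤ m ∧ m < Q ∧ ¬KeepP (T.zs v m) i) ∨
    (Joined T v Q i ∧ Joined T v Q (i + 1) ∧ AboveP T Q i)
  B : ∀ s, (∃ m, n ≤ m ∧ m < Q ∧ ¬KeepB (T.zs v m) s) ∨
    (Joined T v Q 0 ∧ Joined T v Q 1 ∧ AboveB T Q s)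
  W : (∃ m, n ≤ m ∧ m < Q ∧ ¬KeepW (T.zs v m)) ∨ (Joined T v Q 2 ∧ AboveW T Q)
  H : (∃ p, n ≤ p ∧ p < Q ∧ ¬KeepH (T.zs v p) ∧
      ((∃ q, p < q ∧ q < Q ∧ ¬KeepW (T.zs v q)) ∨ (Joined T v Q 2 ∧ AboveW T Q))) ∨
    (Joined T v Q 0 ∧ Joined T v Q 2 ∧ AboveH T Q)

lemma KeepE.isSome {z : Fin 3 → Option (Mid k)} {i : Fin 3} (h : KeepE z i) :
    (z i).isSome ∧ (z (i + 1)).isSome := by
  obtain ⟨d, h1, h2⟩ := h
  simp [h1, h2]

/-- Eventually every fold is settled. -/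
theorem eventually_settled (v : Fin 3 → ℤ) (n : ℕ) : ∀ᶠ Q in atTop, Settled T v n Q := by
  classical
  -- a fold that is not kept for ever breaks arbitrarily high
  have dich : ∀ q : ℕ → Prop, (∀ᶠ m in atTop, q m) ∨ ∀ a, ∀ᶠ Q in atTop,
      ∃ m, a ≤ m ∧ m < Q ∧ ¬q m := by
    intro q
    by_cases hq : ∀ᶠ m in atTop, q m
    · exact .inl hq
    refine .inr fun a => ?_
    obtain ⟨m, h1, h2⟩ : ∃ m, a ≤ m ∧ ¬q m := by
      by_contra hc
      push Not at hc
      exact hq (eventually_atTop.2 ⟨a, hc⟩)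
    exact eventually_atTop.2 ⟨m + 1, fun Q hQ => ⟨m, h1, by omega, h2⟩⟩
  have tail : ∀ {q : ℕ → Prop}, (∀ᶠ m in atTop, q m) → ∀ᶠ Q in atTop, ∀ m, Q ≤ m → q m := by
    intro q hq
    obtain ⟨A, hA⟩ := eventually_atTop.1 hq
    exact eventually_atTop.2 ⟨A, fun Q hQ m hm => hA m (hQ.trans hm)⟩
  have join : ∀ i, (∀ᶠ m in atTop, (T.zs v m i).isSome) →
      ∀ᶠ Q in atTop, Joined T v Q i ∧ ∀ m, Q ≤ m → T.zs v m i = T.zs 0 m i := fun i hi =>
    (eventually_merge T hi 0).mono fun Q hQ => ⟨hQ, fun m hm => zs_merge T hQ hm⟩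
  have pairE : ∀ i, ∀ᶠ Q in atTop, (∃ m, n ≤ m ∧ m < Q ∧ ¬KeepE (T.zs v m) i) ∨
      (Joined T v Q i ∧ Joined T v Q (i + 1) ∧ AboveE T Q i) := fun i => by
    rcases dich (fun m => KeepE (T.zs v m) i) with h | h
    · filter_upwards [tail h, join i (h.mono fun m hm => hm.isSome.1),
        join (i + 1) (h.mono fun m hm => hm.isSome.2)] with Q h1 h2 h3
      refine .inr ⟨h2.1, h3.1, fun m hm => ?_⟩
      obtain ⟨d, e1, e2⟩ := h1 m hm
      exact ⟨d, by rw [← h2.2 m hm, e1], by rw [← h3.2 m hm, e2]⟩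
    · exact (h n).mono fun Q hQ => .inl hQ
  have pairP : ∀ i, ∀ᶠ Q in atTop, (∃ m, n ≤ m ∧ m < Q ∧ ¬KeepP (T.zs v m) i) ∨
      (Joined T v Q i ∧ Joined T v Q (i + 1) ∧ AboveP T Q i) := fun i => by
    rcases dich (fun m => KeepP (T.zs v m) i) with h | h
    · filter_upwards [tail h, join i (h.mono fun m ⟨b, e, _⟩ => by simp [e]),
        join (i + 1) (h.mono fun m ⟨b, _, e⟩ => by simp [e])] with Q h1 h2 h3
      refine .inr ⟨h2.1, h3.1, fun m hm => ?_⟩
      obtain ⟨d, e1, e2⟩ := h1 m hm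
      exact ⟨d, by rw [← h2.2 m hm, e1], by rw [← h3.2 m hm, e2]⟩
    · exact (h n).mono fun Q hQ => .inl hQ
  have pairB : ∀ s, ∀ᶠ Q in atTop, (∃ m, n ≤ m ∧ m < Q ∧ ¬KeepB (T.zs v m) s) ∨
      (Joined T v Q 0 ∧ Joined T v Q 1 ∧ AboveB T Q s) := fun s => by
    rcases dich (fun m => KeepB (T.zs v m) s) with h | h
    · filter_upwards [tail h, join 0 (h.mono fun m ⟨b, e, _⟩ => by simp [e]),
        join 1 (h.mono fun m ⟨b, _, e⟩ => by simp [e])] with Q h1 h2 h3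
      refine .inr ⟨h2.1, h3.1, fun m hm => ?_⟩
      obtain ⟨d, e1, e2⟩ := h1 m hm
      exact ⟨d, by rw [← h2.2 m hm, e1], by rw [← h3.2 m hm, e2]⟩
    · exact (h n).mono fun Q hQ => .inl hQ
  have wordW : ∀ a, ∀ᶠ Q in atTop, (∃ m, a ≤ m ∧ m < Q ∧ ¬KeepW (T.zs v m)) ∨
      (Joined T v Q 2 ∧ AboveW T Q) := fun a => by
    rcases dich (fun m => KeepW (T.zs v m)) with h | h
    · filter_upwards [tail h,
        join 2 (h.mono fun m hm => by simp [show T.zs v m 2 = _ from hm])] with Q h1 h2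
      exact .inr ⟨h2.1, fun m hm => (h2.2 m hm).symm.trans (h1 m hm)⟩
    · exact (h a).mono fun Q hQ => .inl hQ
  have hitH : ∀ᶠ Q in atTop, (∃ p, n ≤ p ∧ p < Q ∧ ¬KeepH (T.zs v p) ∧
      ((∃ q, p < q ∧ q < Q ∧ ¬KeepW (T.zs v q)) ∨ (Joined T v Q 2 ∧ AboveW T Q))) ∨
      (Joined T v Q 0 ∧ Joined T v Q 2 ∧ AboveH T Q) := by
    rcases dich (fun m => KeepH (T.zs v m)) with h | h
    · filter_upwards [tail h, join 0 (h.mono fun m ⟨_, d, e⟩ => by simp [e]),
        join 2 (h.mono fun m ⟨e, _⟩ => by simp [show T.zs v m 2 = _ from e])] with Q h1 h2 h3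
      refine .inr ⟨h2.1, h3.1, fun m hm => ?_⟩
      obtain ⟨e1, d, e2⟩ := h1 m hm
      exact ⟨(h3.2 m hm).symm.trans e1, d, by rw [← h2.2 m hm, e2]⟩
    · obtain ⟨Q₀, hQ₀⟩ := eventually_atTop.1 (h n)
      obtain ⟨p, hp1, hp2, hp3⟩ := hQ₀ Q₀ le_rfl
      filter_upwards [wordW (p + 1), eventually_ge_atTop Q₀] with Q hW hQ
      refine .inl ⟨p, hp1, by omega, hp3, ?_⟩
      exact hW.imp_left fun ⟨q, a, b, c⟩ => ⟨q, a, b, c⟩
  filter_upwards [eventually_ge_atTop n, eventually_all.2 pairE, eventually_all.2 pairP,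
    eventually_all.2 pairB, wordW n, hitH] with Q h0 h1 h2 h3 h4 h5
  exact ⟨h0, h1, h2, h3, h4, h5⟩

/-- The folds kept above `Q` agree at the origin. -/
structure TopEq (T' : Tower k em) (Q : ℕ) : Prop where
  E : ∀ i, AboveE T Q i → (T'.stAt 0 Q).flags.eq i = (T.stAt 0 Q).flags.eq i ∧
    (T'.stAt 0 Q).flags.rel i = (T.stAt 0 Q).flags.rel i
  P : ∀ i, AboveP T Q i → (T'.stAt 0 Q).flags.peq i = (T.stAt 0 Q).flags.peq i ∧
    (T'.stAt 0 Q).flags.prel i = (T.stAt 0 Q).flags.prel i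
  B : ∀ s, AboveB T Q s → (T'.stAt 0 Q).flags.br s = (T.stAt 0 Q).flags.br s
  W : AboveW T Q → (T'.stAt 0 Q).word = (T.stAt 0 Q).word
  H : AboveH T Q → (T'.stAt 0 Q).hit = (T.stAt 0 Q).hit

variable {T}
variable {T' : Tower k em} {v : Fin 3 → ℤ} {Q : ℕ}

/-- Equal low placements give equal symbols up to the level. -/
lemma zs_low (hs : ∀ m, m ≤ Q → T'.shift m = T.shift m) (v : Fin 3 → ℤ) :
    ∀ m, m ≤ Q → T'.zs v m = T.zs v m ∧ T'.tile v m = T.tile v m := fun m hm => by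
  obtain ⟨h1, h2⟩ := Tower.low_congr (N := Q + 1) (fun j hj => hs j (by omega)) v m (by omega)
  exact ⟨funext fun i => congrArg sym (congrFun (h2 (by omega)) i), h1⟩

/-- A tower with the same low placements and the same kept folds has the same low states. -/
theorem stAt_eq (hs : ∀ m, m ≤ Q → T'.shift m = T.shift m) (htop : TopEq T T' Q) {n : ℕ}
    (hv : Settled T v n Q) : T'.stAt v n = T.stAt v n := by
  have hd : ∀ m, n ≤ m → m ≤ Q → T.zs v m = T'.zs v m := fun m _ h => (zs_low hs v m h).1.symm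
  have tQ : ∀ w, T'.tile w Q = T.tile w Q := fun w => (zs_low hs w Q le_rfl).2
  have eqW : Joined T v Q 2 ∧ AboveW T Q → (T.stAt v Q).word = (T'.stAt v Q).word := fun hj => by
    rw [Tower.stAt, Tower.stAt, tQ, T.word_congr Q hj.1, T'.word_congr Q hj.1]
    have h := htop.W hj.2
    rw [Tower.stAt, Tower.stAt, tQ] at h
    exact h.symm
  symm
  refine st_ext (fun i => syncE hv.le hd i ?_) (fun i => syncP hv.le hd i ?_)
    (fun s => syncB hv.le hd s ?_) (funext fun i => ?_) (funext fun i => ?_)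
    (syncW hv.le hd (hv.W.imp_right eqW)) ?_
  · refine (hv.E i).imp_right fun ⟨h0, h1, ha⟩ => ?_
    have h := htop.E i ha
    rw [Tower.stAt, Tower.stAt, tQ] at h ⊢
    obtain ⟨a1, -, a3, -⟩ := T.kind_congr Q h0 h1
    obtain ⟨b1, -, b3, -⟩ := T'.kind_congr Q h0 h1
    exact ⟨a1.trans (h.1.symm.trans b1.symm), a3.trans (h.2.symm.trans b3.symm)⟩
  · refine (hv.P i).imp_right fun ⟨h0, h1, ha⟩ => ?_
    have h := htop.P i ha
    rw [Tower.stAt, Tower.stAt, tQ] at h ⊢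
    obtain ⟨-, a2, -, a4⟩ := T.kind_congr Q h0 h1
    obtain ⟨-, b2, -, b4⟩ := T'.kind_congr Q h0 h1
    exact ⟨a2.trans (h.1.symm.trans b2.symm), a4.trans (h.2.symm.trans b4.symm)⟩
  · refine (hv.B s).imp_right fun ⟨h0, h1, ha⟩ => ?_
    have h := htop.B s ha
    rw [Tower.stAt, Tower.stAt, tQ] at h ⊢
    rw [T.br_congr Q h0 h1, T'.br_congr Q h0 h1, h]
  · rw [(was_eq T v n i).1, (was_eq T' v n i).1, hd n le_rfl hv.le]
  · rw [(was_eq T v n i).2, (was_eq T' v n i).2, hd n le_rfl hv.le]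
  · rcases hv.H with ⟨p, hp1, hp2, hp3, hp4⟩ | ⟨h0, h2, ha⟩
    · refine syncH (Q := p + 1) (by omega) (fun m h1 h2 => hd m h1 (by omega))
        (fun m h1 h2 => ?_) (.inl ⟨p, hp1, by omega, hp3⟩)
      refine syncW (Q := Q) (show m ≤ Q by omega) (fun j h3 h4 => hd j (by omega) h4) ?_
      exact hp4.imp (fun ⟨q, a, b, c⟩ => ⟨q, by omega, b, c⟩) eqW
    · refine syncH hv.le hd (fun m h1 hmQ => ?_) (.inr ?_)
      · exact syncW hmQ (fun j h3 h4 => hd j (by omega) h4)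
          (.inr (eqW ⟨h2, fun j hj => (ha j hj).1⟩))
      · have h := htop.H ha
        rw [Tower.stAt, Tower.stAt, tQ] at h ⊢
        rw [T.hit_congr Q h0 h2, T'.hit_congr Q h0 h2, h]

end Vale.Agent.P193.W4.Coset.Realise
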