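import Vale.Agent.P193.W4.Coset.Realise.Word

/-!
P193, module W4 B, realisation: the tower with the low placements of a given one whose origin
shows, above the level `Q`, letters on the kept axes, then the digits of a given fold, and on the
word axis one emission.
-/

namespace Vale.Agent.P193.W4.Coset.Realise

variable {k : ℕ} {em : ℕ → Option (List (Full k))}

/-- The data of the new tower. -/
structure Plan (k : ℕ) where
  /-- the placements are kept up to this level -/
  Q : ℕ
  /-- the digits of the fold start here -/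
  i₀ : ℕ
  /-- the level of the emission -/
  L : ℕ
  /-- the letters of full digits below `i₀` -/
  d : ℕ → Full k
  /-- the letters of padded digits below `i₀` -/
  b : ℕ → Bool
  /-- the digits of the fold, lowest first -/
  wit : List (Fin 3 → Option (Mid k))
  /-- the symbol on the word axis at `L` -/
  fin : Option (Mid k)

variable (T : Tower k em) (P : Plan k)

/-- The axis shows letters at all levels from `Q`. -/
def FullAbove (Q : ℕ) (i : Fin 3) : Prop := ∀ m, Q ≤ m → ∃ d, T.zs 0 m i = some (.full d)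

/-- The axis shows padded letters at all levels from `Q`. -/
def PadAbove (Q : ℕ) (i : Fin 3) : Prop := ∀ m, Q ≤ m → ∃ b, T.zs 0 m i = some (.pad b)

open Classical in
/-- The symbols of the origin above `Q`. -/
noncomputable def col (m : ℕ) (i : Fin 3) : Option (Mid k) :=
  if i = 2 ∧ AboveW T P.Q then
    if m < P.L then some .pass else if m = P.L then P.fin else none
  else if m < P.i₀ then
    if FullAbove T P.Q i then some (.full (P.d m))
    else if PadAbove T P.Q i then some (.pad (P.b m))
    else none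
  else P.wit.getD (m - P.i₀) (fun _ => none) i

variable {T P}

lemma FullAbove.not_pad {Q : ℕ} {i : Fin 3} (h : FullAbove T Q i) : ¬PadAbove T Q i := fun h' => by
  obtain ⟨d, e⟩ := h Q le_rfl
  obtain ⟨b, e'⟩ := h' Q le_rfl
  rw [e] at e'
  cases e'

lemma FullAbove.not_word {Q : ℕ} {i : Fin 3} (h : FullAbove T Q i) : ¬(i = 2 ∧ AboveW T Q) := by
  rintro ⟨rfl, h'⟩
  obtain ⟨d, e⟩ := h Q le_rfl
  rw [show T.zs 0 Q 2 = _ from h' Q le_rfl] at e
  cases e

lemma PadAbove.not_word {Q : ℕ} {i : Fin 3} (h : PadAbove T Q i) : ¬(i = 2 ∧ AboveW T Q) := by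
  rintro ⟨rfl, h'⟩
  obtain ⟨d, e⟩ := h Q le_rfl
  rw [show T.zs 0 Q 2 = _ from h' Q le_rfl] at e
  cases e

lemma col_full {m : ℕ} {i : Fin 3} (h : FullAbove T P.Q i) (hm : m < P.i₀) :
    col T P m i = some (.full (P.d m)) := by
  rw [col, if_neg h.not_word, if_pos hm, if_pos h]

lemma col_pad {m : ℕ} {i : Fin 3} (h : PadAbove T P.Q i) (hm : m < P.i₀) :
    col T P m i = some (.pad (P.b m)) := by
  rw [col, if_neg h.not_word, if_pos hm, if_neg fun hf => hf.not_pad h, if_pos h]

lemma col_pass {m : ℕ} (h : AboveW T P.Q) (hm : m < P.L) : col T P m 2 = some .pass := by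
  rw [col, if_pos ⟨rfl, h⟩, if_pos hm]

lemma col_fin (h : AboveW T P.Q) : col T P P.L 2 = P.fin := by
  rw [col, if_pos ⟨rfl, h⟩, if_neg (lt_irrefl _), if_pos rfl]

lemma col_wit {m : ℕ} {i : Fin 3} (h : ¬(i = 2 ∧ AboveW T P.Q)) (hm : P.i₀ ≤ m) :
    col T P m i = P.wit.getD (m - P.i₀) (fun _ => none) i := by
  rw [col, if_neg h, if_neg (by omega)]

lemma col_high (hL : P.i₀ + P.wit.length ≤ P.L) {m : ℕ} (hm : P.L < m) (i : Fin 3) :
    col T P m i = none := by
  by_cases h : i = 2 ∧ AboveW T P.Q
  · rw [col, if_pos h, if_neg (by omega), if_neg (by omega)]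
  · rw [col_wit h (by omega), List.getD_eq_getElem?_getD, List.getElem?_eq_none (by omega)]
    rfl

variable (T P)

/-- A tower realising the plan. -/
structure Built (T' : Tower k em) : Prop where
  low : ∀ m, m ≤ P.Q → T'.shift m = T.shift m
  high : ∀ m, P.Q < m → T'.zs 0 m = col T P m
  reset : T'.Reset

/-- The plan can be realised. -/
theorem exists_built (hem : ∀ n w, em n = some w → w ≠ []) (hQ : P.Q < P.L)
    (hL : P.i₀ + P.wit.length ≤ P.L) : ∃ T', Built T P T' := by
  classical
  let d : ℕ → Fin 3 → Fin (base k) := fun m i =>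
    if m ≤ P.Q then T.digit 0 m i else (col T P m i).elim idle pos
  obtain ⟨T', hd, -, hr, -⟩ := exists_tower_digits (em := em) hem 0 d (M := P.L + 1) fun m hm =>
    funext fun i => by simp [d, show ¬m ≤ P.Q by omega, col_high hL (show P.L < m by omega) i]
  refine ⟨T', fun m hm => ?_, fun m hm => funext fun i => ?_, hr⟩
  · refine Tower.shift_eq_of_digits (v := 0) (N := P.Q + 1) (fun j hj => ?_) m (by omega)
    rw [hd]
    funext i
    simp [d, show j ≤ P.Q by omega]
  · show sym (T'.digit 0 m i) = _
    rw [hd]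
    simp only [d, if_neg (show ¬m ≤ P.Q by omega)]
    rcases col T P m i with _ | s
    · exact sym_idle
    · exact sym_eq_some.2 rfl

variable {T P}

/-- The flags of the fold. -/
def Plan.flags (P : Plan k) : Flags k := P.wit.foldr (fun z f => f.step z) Flags.off

/-- The folds of the axes `0` and `1` are equal. -/
structure LowEq (f f' : Flags k) : Prop where
  eq : f.eq 0 = f'.eq 0
  rel : f.rel 0 = f'.rel 0
  peq : f.peq 0 = f'.peq 0
  prel : f.prel 0 = f'.prel 0
  br : f.br = f'.br
  wasH : f.wasH 1 = f'.wasH 1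
  wasP : f.wasP 1 = f'.wasP 1

lemma LowEq.step {f f' : Flags k} (h : LowEq f f') {z z' : Fin 3 → Option (Mid k)}
    (h0 : z 0 = z' 0) (h1 : z 1 = z' 1) : LowEq (f.step z) (f'.step z') := by
  constructor <;>
    simp only [Flags.step, zero_add, h0, h1, h.eq, h.rel, h.peq, h.prel, h.br, h.wasH, h.wasP]

lemma lowEq_dead (f : Flags k) {z : Fin 3 → Option (Mid k)} (h0 : z 0 = none) (h1 : z 1 = none) :
    LowEq (f.step z) Flags.off := by
  constructor <;> simp [Flags.step, Flags.off, h0, h1]

lemma flags_dead (f : Flags k) {z : Fin 3 → Option (Mid k)} (h : ∀ i, z i = none) :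
    f.step z = Flags.off := by
  simp [Flags.step, Flags.off, h]

variable (T P) in
/-- The folds of the plan are those wanted at `Q`. -/
structure Wanted : Prop where
  eqs : ∀ i, AboveE T P.Q i →
    P.flags.eq i = (T.stAt 0 P.Q).flags.eq i ∧ P.flags.rel i = (T.stAt 0 P.Q).flags.rel i
  peqs : ∀ i, AboveP T P.Q i →
    P.flags.peq i = (T.stAt 0 P.Q).flags.peq i ∧ P.flags.prel i = (T.stAt 0 P.Q).flags.prel i
  brs : ∀ s, AboveB T P.Q s → P.flags.br s = (T.stAt 0 P.Q).flags.br s
  track : ∀ s, AboveB T P.Q s → (T.stAt 0 P.Q).flags.br s = true →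
    ∀ m, P.Q < m → m < P.i₀ → P.d m s = P.b m

section Built

variable {T' : Tower k em} (hB : Built T P T') (hQi : P.Q < P.i₀)

include hB hQi

lemma zs_wit {i : Fin 3} (h : ¬(i = 2 ∧ AboveW T P.Q)) (j : ℕ) :
    T'.zs 0 (P.i₀ + j) i = P.wit.getD j (fun _ => none) i := by
  rw [hB.high _ (by omega), col_wit h (by omega), Nat.add_sub_cancel_left]

lemma flags_low : LowEq (T'.stAt 0 P.i₀).flags P.flags := by
  have key : ∀ (l : List (Fin 3 → Option (Mid k))) (j : ℕ), P.wit.drop j = l →
      LowEq (T'.stAt 0 (P.i₀ + j)).flags (l.foldr (fun z f => f.step z) Flags.off) := by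
    intro l
    induction l with
    | nil =>
      intro j hj
      have hlen : P.wit.length ≤ j := List.drop_eq_nil_iff.1 hj
      rw [T'.flags_step]
      refine lowEq_dead _ ?_ ?_ <;>
        rw [zs_wit hB hQi (fun h => absurd h.1 (by decide)), List.getD_eq_getElem?_getD,
          List.getElem?_eq_none hlen] <;> rfl
    | cons z l ih =>
      intro j hj
      have hlt : j < P.wit.length := by
        by_contra hc
        rw [List.drop_eq_nil_iff.2 (by omega)] at hj
        cases hj
      rw [List.drop_eq_getElem_cons hlt] at hj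
      obtain ⟨hz, hl⟩ := List.cons.inj hj
      rw [T'.flags_step, List.foldr_cons]
      refine LowEq.step (by rw [Nat.add_assoc]; exact ih (j + 1) hl) ?_ ?_ <;>
        rw [zs_wit hB hQi (fun h => absurd h.1 (by decide)), List.getD_eq_getElem?_getD,
          List.getElem?_eq_getElem hlt, ← hz] <;> rfl
  simpa [Plan.flags] using key P.wit 0 rfl

lemma flags_all (hW : ¬AboveW T P.Q) : (T'.stAt 0 P.i₀).flags = P.flags := by
  have key : ∀ (l : List (Fin 3 → Option (Mid k))) (j : ℕ), P.wit.drop j = l →
      (T'.stAt 0 (P.i₀ + j)).flags = l.foldr (fun z f => f.step z) Flags.off := by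
    intro l
    induction l with
    | nil =>
      intro j hj
      have hlen : P.wit.length ≤ j := List.drop_eq_nil_iff.1 hj
      rw [T'.flags_step]
      refine flags_dead _ fun i => ?_
      rw [zs_wit hB hQi (fun h => hW h.2), List.getD_eq_getElem?_getD,
        List.getElem?_eq_none hlen]
      rfl
    | cons z l ih =>
      intro j hj
      have hlt : j < P.wit.length := by
        by_contra hc
        rw [List.drop_eq_nil_iff.2 (by omega)] at hj
        cases hj
      rw [List.drop_eq_getElem_cons hlt] at hj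
      obtain ⟨hz, hl⟩ := List.cons.inj hj
      have e : T'.zs 0 (P.i₀ + j) = z := funext fun i => by
        rw [zs_wit hB hQi (fun h => hW h.2), List.getD_eq_getElem?_getD,
          List.getElem?_eq_getElem hlt, ← hz]
        rfl
      rw [T'.flags_step, List.foldr_cons, e, ← ih (j + 1) hl, Nat.add_assoc]
  simpa [Plan.flags] using key P.wit 0 rfl

lemma keepE_seg {i : Fin 3} (h : AboveE T P.Q i) {m : ℕ} (h1 : P.Q ≤ m) (h2 : m < P.i₀) :
    KeepE (T'.zs 0 m) i := by
  rcases h1.eq_or_lt with rfl | h1
  · rw [(zs_low hB.low 0 _ le_rfl).1]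
    exact h _ le_rfl
  · rw [hB.high m h1]
    exact ⟨P.d m, col_full (fun j hj => (h j hj).imp fun _ e => e.1) h2,
      col_full (fun j hj => (h j hj).imp fun _ e => e.2) h2⟩

lemma keepP_seg {i : Fin 3} (h : AboveP T P.Q i) {m : ℕ} (h1 : P.Q ≤ m) (h2 : m < P.i₀) :
    KeepP (T'.zs 0 m) i := by
  rcases h1.eq_or_lt with rfl | h1
  · rw [(zs_low hB.low 0 _ le_rfl).1]
    exact h _ le_rfl
  · rw [hB.high m h1]
    exact ⟨P.b m, col_pad (fun j hj => (h j hj).imp fun _ e => e.1) h2,
      col_pad (fun j hj => (h j hj).imp fun _ e => e.2) h2⟩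

/-- Kept lines reach `Q` from the fold. -/
lemma seg_E {i : Fin 3} (h : AboveE T P.Q i) :
    (T'.stAt 0 P.Q).flags.eq i = (T'.stAt 0 P.i₀).flags.eq i ∧
      (T'.stAt 0 P.Q).flags.rel i =
        if (T'.stAt 0 P.i₀).flags.eq i = true then (T'.stAt 0 P.i₀).flags.rel i else .apart := by
  have key : ∀ j m, P.Q ≤ m → m + (j + 1) = P.i₀ →
      (T'.stAt 0 m).flags.eq i = (T'.stAt 0 P.i₀).flags.eq i ∧
      (T'.stAt 0 m).flags.rel i =
        if (T'.stAt 0 P.i₀).flags.eq i = true then (T'.stAt 0 P.i₀).flags.rel i else .apart := by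
    intro j
    induction j with
    | zero =>
      intro m hm he
      rw [T'.flags_step 0 m, show m + 1 = P.i₀ by omega]
      exact keepE_step (keepE_seg hB hQi h hm (by omega))
    | succ j ih =>
      intro m hm he
      obtain ⟨e1, e2⟩ := ih (m + 1) (by omega) (by omega)
      rw [T'.flags_step 0 m]
      obtain ⟨s1, s2⟩ := keepE_step (f := (T'.stAt 0 (m + 1)).flags)
        (keepE_seg hB hQi h hm (by omega))
      rw [s1, s2, e1, e2]
      exact ⟨rfl, by split <;> rfl⟩
  exact key (P.i₀ - P.Q - 1) P.Q le_rfl (by omega)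

/-- Kept projection lines reach `Q` from the fold. -/
lemma seg_P {i : Fin 3} (h : AboveP T P.Q i) :
    (T'.stAt 0 P.Q).flags.peq i = (T'.stAt 0 P.i₀).flags.peq i ∧
      (T'.stAt 0 P.Q).flags.prel i =
        if (T'.stAt 0 P.i₀).flags.peq i = true then (T'.stAt 0 P.i₀).flags.prel i else .apart := by
  have key : ∀ j m, P.Q ≤ m → m + (j + 1) = P.i₀ →
      (T'.stAt 0 m).flags.peq i = (T'.stAt 0 P.i₀).flags.peq i ∧
      (T'.stAt 0 m).flags.prel i =
        if (T'.stAt 0 P.i₀).flags.peq i = true then (T'.stAt 0 P.i₀).flags.prel i else .apart := by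
    intro j
    induction j with
    | zero =>
      intro m hm he
      rw [T'.flags_step 0 m, show m + 1 = P.i₀ by omega]
      exact keepP_step (keepP_seg hB hQi h hm (by omega))
    | succ j ih =>
      intro m hm he
      obtain ⟨e1, e2⟩ := ih (m + 1) (by omega) (by omega)
      rw [T'.flags_step 0 m]
      obtain ⟨s1, s2⟩ := keepP_step (f := (T'.stAt 0 (m + 1)).flags)
        (keepP_seg hB hQi h hm (by omega))
      rw [s1, s2, e1, e2]
      exact ⟨rfl, by split <;> rfl⟩
  exact key (P.i₀ - P.Q - 1) P.Q le_rfl (by omega)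

omit hB hQi in
lemma kind_low {Q : ℕ} {i : Fin 3} (hW : AboveW T Q) (h0 : i ≠ 2) (h1 : i + 1 ≠ 2) : i = 0 := by
  fin_cases i <;> first | rfl | exact absurd rfl h0 | exact absurd rfl h1

lemma topE (hw : Wanted T P) (i : Fin 3) (h : AboveE T P.Q i) :
    (T'.stAt 0 P.Q).flags.eq i = (T.stAt 0 P.Q).flags.eq i ∧
      (T'.stAt 0 P.Q).flags.rel i = (T.stAt 0 P.Q).flags.rel i := by
  have hi : (T'.stAt 0 P.i₀).flags.eq i = P.flags.eq i ∧
      (T'.stAt 0 P.i₀).flags.rel i = P.flags.rel i := by
    by_cases hW : AboveW T P.Q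
    · have f0 : ∀ {j}, (∀ m, P.Q ≤ m → ∃ d, T.zs 0 m j = some (.full d)) → j ≠ 2 :=
        fun hf e => (show FullAbove T P.Q _ from hf).not_word ⟨e, hW⟩
      obtain rfl := kind_low (i := i) hW (f0 fun m hm => (h m hm).imp fun _ e => e.1)
        (f0 fun m hm => (h m hm).imp fun _ e => e.2)
      exact ⟨(flags_low hB hQi).eq, (flags_low hB hQi).rel⟩
    · rw [flags_all hB hQi hW]
      exact ⟨rfl, rfl⟩
  obtain ⟨e1, e2⟩ := seg_E hB hQi h
  obtain ⟨w1, w2⟩ := hw.eqs i h
  rw [e1, e2, hi.1, hi.2, w1, w2]
  refine ⟨rfl, ?_⟩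
  split
  · rfl
  · rename_i he
    exact ((Reach.apart (T.reach _ _) i).1 (Bool.eq_false_iff.2 he)).symm

lemma topP (hw : Wanted T P) (i : Fin 3) (h : AboveP T P.Q i) :
    (T'.stAt 0 P.Q).flags.peq i = (T.stAt 0 P.Q).flags.peq i ∧
      (T'.stAt 0 P.Q).flags.prel i = (T.stAt 0 P.Q).flags.prel i := by
  have hi : (T'.stAt 0 P.i₀).flags.peq i = P.flags.peq i ∧
      (T'.stAt 0 P.i₀).flags.prel i = P.flags.prel i := by
    by_cases hW : AboveW T P.Q
    · have f0 : ∀ {j}, (∀ m, P.Q ≤ m → ∃ d, T.zs 0 m j = some (.pad d)) → j ≠ 2 :=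
        fun hf e => (show PadAbove T P.Q _ from hf).not_word ⟨e, hW⟩
      obtain rfl := kind_low (i := i) hW (f0 fun m hm => (h m hm).imp fun _ e => e.1)
        (f0 fun m hm => (h m hm).imp fun _ e => e.2)
      exact ⟨(flags_low hB hQi).peq, (flags_low hB hQi).prel⟩
    · rw [flags_all hB hQi hW]
      exact ⟨rfl, rfl⟩
  obtain ⟨e1, e2⟩ := seg_P hB hQi h
  obtain ⟨w1, w2⟩ := hw.peqs i h
  rw [e1, e2, hi.1, hi.2, w1, w2]
  refine ⟨rfl, ?_⟩
  split
  · rfl
  · rename_i he
    exact ((Reach.apart (T.reach _ _) i).2 (Bool.eq_false_iff.2 he)).symm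

lemma topB (hw : Wanted T P) (s : Option (Fin k)) (h : AboveB T P.Q s) :
    (T'.stAt 0 P.Q).flags.br s = (T.stAt 0 P.Q).flags.br s := by
  have hi : (T'.stAt 0 P.i₀).flags.br s = (T.stAt 0 P.Q).flags.br s := by
    rw [(flags_low hB hQi).br]
    exact hw.brs s h
  have hz : ∀ m, P.Q ≤ m → m < P.i₀ → (∃ d, T'.zs 0 m 0 = some (.full d)) ∧
      ((T.stAt 0 P.Q).flags.br s = true → KeepB (T'.zs 0 m) s) := by
    intro m h1 h2
    rcases h1.eq_or_lt with rfl | h1
    · rw [(zs_low hB.low 0 _ le_rfl).1]
      exact ⟨(h _ le_rfl).imp fun _ e => e.1, fun _ => h _ le_rfl⟩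
    · rw [hB.high m h1]
      have e0 := col_full (m := m) (show FullAbove T P.Q 0 from fun j hj =>
        (h j hj).imp fun _ e => e.1) h2
      have e1 := col_pad (m := m) (show PadAbove T P.Q 1 from fun j hj => by
        obtain ⟨d, -, e⟩ := h j hj
        exact ⟨_, e⟩) h2
      exact ⟨⟨_, e0⟩, fun hb => ⟨P.d m, e0, by rw [e1, hw.track s h hb m h1 h2]⟩⟩
  have key : ∀ j m, P.Q ≤ m → m + j = P.i₀ →
      (T'.stAt 0 m).flags.br s = (T.stAt 0 P.Q).flags.br s := by
    intro j
    induction j with
    | zero =>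
      intro m hm he
      rw [show m = P.i₀ by omega]
      exact hi
    | succ j ih =>
      intro m hm he
      obtain ⟨⟨d, hd⟩, hk⟩ := hz m hm (by omega)
      rw [T'.flags_step]
      rcases hb : (T.stAt 0 P.Q).flags.br s with _ | _
      · simp [Flags.step, hd, ih (m + 1) (by omega) (by omega), hb]
      · rw [keepB_step (hk hb), ih (m + 1) (by omega) (by omega), hb]
  exact key (P.i₀ - P.Q) P.Q le_rfl (by omega)

/-! ### The word and the match -/

variable (hW : AboveW T P.Q) (hQL : P.Q < P.L) (hL : P.i₀ + P.wit.length ≤ P.L)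

include hW hQL hL

lemma zs_pass {m : ℕ} (h1 : P.Q ≤ m) (h2 : m < P.L) : T'.zs 0 m 2 = some .pass := by
  rcases h1.eq_or_lt with rfl | h1
  · rw [(zs_low hB.low 0 _ le_rfl).1]
    exact hW _ le_rfl
  · rw [hB.high m h1, col_pass hW h2]

lemma word_above {m : ℕ} (hm : P.L < m) : (T'.stAt 0 m).word = none := by
  rw [T'.stAt_step]
  simp [St.step, wordStep, hB.high m (by omega), col_high hL hm]

lemma hit_above_none {m : ℕ} (hm : P.L < m) : (T'.stAt 0 m).hit = false := by
  rw [T'.stAt_step]
  simp [St.step, matchStep, hB.high m (by omega), col_high hL hm]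

lemma word_absent (hfin : P.fin = none) : ∀ m, P.Q ≤ m → (T'.stAt 0 m).word = none := by
  have key : ∀ j m, P.Q ≤ m → P.L + 1 ≤ m + j → (T'.stAt 0 m).word = none := by
    intro j
    induction j with
    | zero => exact fun m _ h => word_above hB hQi hW hQL hL (by omega)
    | succ j ih =>
      intro m h1 h2
      rcases lt_trichotomy m P.L with hlt | rfl | hlt
      · rw [T'.stAt_step]
        simp [St.step, wordStep, zs_pass hB hQi hW hQL hL h1 hlt, ih (m + 1) (by omega) (by omega)]
      · rw [T'.stAt_step]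
        simp [St.step, wordStep, hB.high _ hQL, col_fin hW, hfin]
      · exact word_above hB hQi hW hQL hL hlt
  exact fun m hm => key (P.L + 1) m hm (by omega)

lemma hit_absent (hfin : P.fin = none) : ∀ m, P.Q ≤ m → (T'.stAt 0 m).hit = false := by
  intro m hm
  have h0 := word_absent hB hQi hW hQL hL hfin
  rw [T'.stAt_step]
  have e : topLetter (wordStep em m (T'.stAt 0 (m + 1)).word (T'.zs 0 m 2)) = none := by
    have := h0 m hm
    rw [T'.stAt_step] at this
    simp only [St.step] at this
    rw [this]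
    rfl
  simp only [St.step]
  rw [e, h0 (m + 1) (by omega)]
  simp only [matchStep, topLetter]
  split <;> simp

variable {w : List (Full k)} (hfin : P.fin = some .reset) (hem : em P.L = some w)

include hfin hem

lemma word_emitted : ∀ m, P.Q ≤ m → m ≤ P.L → (T'.stAt 0 m).word = some (padWord m w) := by
  intro m h1 h2
  induction h2 using Nat.decreasingInduction with
  | self =>
    rw [T'.stAt_step]
    simp [St.step, wordStep, hB.high _ hQL, col_fin hW, hfin, hem]
  | of_succ l hl ih =>
    rw [T'.stAt_step]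
    simp [St.step, wordStep, zs_pass hB hQi hW hQL hL h1 hl, ih (by omega),
      take_padWord (Nat.le_succ l)]

/-- No marker at the end of the word: no match. -/
lemma hit_missed (hwL : w.length < P.L)
    (h : ∀ m, P.Q ≤ m → m < P.L → T'.zs 0 m 0 = some .hash → m ≠ w.length) :
    ∀ m, P.Q ≤ m → (T'.stAt 0 m).hit = false := by
  have key : ∀ j m, P.Q ≤ m → P.L + 1 ≤ m + j → (T'.stAt 0 m).hit = false := by
    intro j
    induction j with
    | zero => exact fun m _ hm => hit_above_none hB hQi hW hQL hL (by omega)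
    | succ j ih =>
      intro m h1 h2
      rcases lt_trichotomy m P.L with hlt | rfl | hlt
      · have hw := word_emitted hB hQi hW hQL hL hfin hem
        have e : topLetter (wordStep em m (T'.stAt 0 (m + 1)).word (T'.zs 0 m 2)) =
            topLetter (T'.stAt 0 m).word := by rw [T'.stAt_step 0 m]; rfl
        rw [T'.stAt_step]
        simp only [St.step]
        rw [e]
        simp only [hw m h1 hlt.le, hw (m + 1) (by omega) hlt, topLetter_padWord,
          matchStep, zs_pass hB hQi hW hQL hL h1 hlt]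
        rcases hz : T'.zs 0 m 0 with _ | s
        · rfl
        cases s with
        | hash =>
          rcases m with _ | m
          · simp [topLetter, padWord]
          · rw [topLetter_padWord]
            have := h _ h1 hlt hz
            by_cases hlt' : m + 1 < w.length
            · simp [List.getElem?_eq_getElem hlt']
            · simp [List.getElem?_eq_none (show w.length ≤ m by omega)]
        | full d => simp [ih (m + 1) (by omega) (by omega)]
        | _ => rfl
      · have e : topLetter (wordStep em P.L (T'.stAt 0 (P.L + 1)).word (T'.zs 0 P.L 2)) = none := by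
          simp only [hB.high _ hQL, col_fin hW, hfin, wordStep, hem, Option.map_some]
          obtain ⟨n, hn⟩ : ∃ n, P.L = n + 1 := ⟨P.L - 1, by omega⟩
          rw [hn, topLetter_padWord, List.getElem?_eq_none (by omega)]
        rw [T'.stAt_step]
        simp only [St.step]
        rw [e, word_above hB hQi hW hQL hL (show P.L < P.L + 1 by omega)]
        simp only [matchStep, topLetter]
        split <;> simp
      · exact hit_above_none hB hQi hW hQL hL hlt
  exact fun m hm => key (P.L + 1) m hm (by omega)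

/-- A marker at the end of the word and its letters below: a match. -/
lemma hit_found (h1 : P.Q < w.length) (h2 : w.length < P.L)
    (h0 : T'.zs 0 w.length 0 = some .hash)
    (hf : ∀ m, P.Q ≤ m → ∀ hm : m < w.length, T'.zs 0 m 0 = some (.full w[m])) :
    (T'.stAt 0 P.Q).hit = true := by
  have hw := word_emitted hB hQi hW hQL hL hfin hem
  have e : ∀ m, topLetter (wordStep em m (T'.stAt 0 (m + 1)).word (T'.zs 0 m 2)) =
      topLetter (T'.stAt 0 m).word := fun m => by rw [T'.stAt_step 0 m]; rfl
  have key : ∀ j m, P.Q ≤ m → m + j = w.length → (T'.stAt 0 m).hit = true := by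
    intro j
    induction j with
    | zero =>
      intro m hm he
      obtain rfl : m = w.length := by omega
      rw [T'.stAt_step]
      simp only [St.step]
      rw [e]
      simp only [hw _ hm h2.le, hw (w.length + 1) (by omega) h2, topLetter_padWord,
        matchStep, zs_pass hB hQi hW hQL hL hm h2, h0]
      obtain ⟨n, hn⟩ : ∃ n, w.length = n + 1 := ⟨w.length - 1, by omega⟩
      rw [hn, topLetter_padWord, List.getElem?_eq_none (show w.length ≤ n + 1 by omega),
        List.getElem?_eq_getElem (show n < w.length by omega)]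
      rfl
    | succ j ih =>
      intro m hm he
      rw [T'.stAt_step]
      simp only [St.step, hw (m + 1) (by omega) (by omega), topLetter_padWord, matchStep,
        zs_pass hB hQi hW hQL hL hm (by omega), hf m hm (by omega)]
      simp [ih (m + 1) (by omega) (by omega), List.getElem?_eq_getElem (show m < w.length by omega)]
  exact key (w.length - P.Q) P.Q le_rfl (by omega)

end Built

end Vale.Agent.P193.W4.Coset.Realise
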