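import Vale.Agent.P193.W4.Code.Basic

/-!
P193, module W4 B, realisation: cosets with equal tails, and the letters that give markers at
given levels given values.
-/

namespace Vale.Agent.P193.W4.Coset.Realise

open Vale.Agent.P193.Action

variable {K : Type} [Group K] {k : ℕ} {g : Fin k → K} (E : EffAction K g)

/-- The own track of a coset. -/
abbrev own (y : ℕ → Bool) (z : K) : ℕ → Bool := E.act z⁻¹ y

lemma codeAt_track {y : ℕ → Bool} (hy : y ∈ E.Y) (u : K) (m : ℕ) (s : Option (Fin k)) :
    codeAt E y u m s = own E y (u * gs g s) m := by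
  rw [codeAt, code_act E hy, code_none E (E.mem _ y hy)]

lemma codeAt_none {y : ℕ → Bool} (hy : y ∈ E.Y) (u : K) (m : ℕ) :
    codeAt E y u m none = own E y u m := by
  rw [codeAt, code_none E (E.mem _ y hy)]

/-- Points with equal tails are equal: every bit is repeated. -/
lemma eq_of_tail {y y' : ℕ → Bool} (hy : y ∈ E.Y) (hy' : y' ∈ E.Y) {A : ℕ}
    (h : ∀ m, A ≤ m → y m = y' m) : y = y' := by
  funext j
  obtain ⟨i, hi, e⟩ := E.sweep j A
  rw [← e y hy, ← e y' hy', h i hi]

/-- Cosets of one point with equal tails are equal. -/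
lemma coset_eq_of_tail {y : ℕ → Bool} (hy : y ∈ E.Y) {u w : K} {A : ℕ}
    (h : ∀ m, A ≤ m → own E y u m = own E y w m) : u = w := by
  by_contra hne
  have e : own E y u = own E y w := eq_of_tail E (E.mem _ y hy) (E.mem _ y hy) h
  refine E.free y hy (w * u⁻¹) (fun e' => hne (mul_inv_eq_one.1 e').symm) ?_
  rw [E.mul _ _ y hy, show E.act u⁻¹ y = E.act w⁻¹ y from e, ← E.mul _ _ y hy,
    mul_inv_cancel, E.one y hy]

/-- The value `a` of a line at level `R a` with letters `σ a` below and the value `b` of a line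
crossing it, not shorter. -/
def Ord {ι α : Type} (R : ι → ℕ) (σ : ι → ℕ → α) (e : ι → Option α) (a b : ι) : Prop :=
  R a ≤ R b ∧ (∀ l < R a, σ a l = σ b l) ∧ (R a = R b → e a = e b) ∧
    (R a + 1 = R b → (e a = some (σ b (R a)) ↔ (e b).isSome)) ∧
    (R a < R b → (e b).isSome → e a = some (σ b (R a)))

/-- Letters above `i` which give all markers their values. -/
theorem choose_letters {ι α : Type} [Finite ι] [Nontrivial α] (i : ℕ) (R : ι → ℕ)
    (σ : ι → ℕ → α) (e : ι → Option α) (hR : ∀ a, i ≤ R a)
    (h : ∀ a b, a ≠ b → Ord R σ e a b ∨ Ord R σ e b a) (hs : ∃ a, (e a).isSome) :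
    ∃ c : ℕ → α, ∀ a,
      (∀ v, e a = some v → (∀ l < R a, c l = σ a l) ∧ c (R a) = v) ∧
      (e a = none → ∃ l, i ≤ l ∧ l < R a ∧ c l ≠ σ a l) := by
  classical
  have : Fintype ι := Fintype.ofFinite ι
  have hne : (Finset.univ.filter fun a => (e a).isSome).Nonempty := by
    obtain ⟨a, ha⟩ := hs
    exact ⟨a, by simp [ha]⟩
  obtain ⟨t, ht, hmax⟩ := Finset.exists_max_image _ R hne
  obtain ⟨w, hw⟩ := Option.isSome_iff_exists.1 (Finset.mem_filter.1 ht).2
  let far : ι → Prop := fun b => e b = none ∧ R t + 1 < R b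
  let flip : α := if hb : ∃ b, far b then (exists_ne (σ hb.choose (R t + 1))).choose else w
  let c : ℕ → α := fun l => if l < R t then σ t l else if l = R t then w else flip
  refine ⟨c, fun a => ⟨fun v hv => ?_, fun hv => ?_⟩⟩
  · have hle : R a ≤ R t := hmax a (by simp [hv])
    by_cases hat : a = t
    · subst hat
      refine ⟨fun l hl => by simp [c, hl], ?_⟩
      rw [hw] at hv
      simpa [c] using Option.some.inj hv
    rcases h a t hat with ⟨_, h2, h3, _, h5⟩ | ⟨h1, h2, h3, _, _⟩
    · refine ⟨fun l hl => by simp [c, hl.trans_le hle, h2 l hl], ?_⟩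
      rcases hle.eq_or_lt with he | hlt
      · have := h3 he
        rw [hv, hw] at this
        simpa [c, he] using (Option.some.inj this).symm
      · have := h5 hlt (by simp [hw])
        rw [hv] at this
        simpa [c, hlt] using (Option.some.inj this).symm
    · have he : R t = R a := le_antisymm h1 hle
      have := h3 he
      rw [hv, hw] at this
      exact ⟨fun l hl => by simp [c, show l < R t by omega, h2 l (by omega)],
        by simpa [c, he] using Option.some.inj this⟩
  · have hat : a ≠ t := fun e' => by rw [e', hw] at hv; simp at hv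
    have hord : R t < R a ∧ (R t + 1 = R a → w ≠ σ a (R t)) := by
      rcases h a t hat with ⟨h1, _, h3, _, h5⟩ | ⟨h1, _, h3, h4, _⟩
      · rcases h1.eq_or_lt with he | hlt
        · rw [h3 he, hw] at hv; simp at hv
        · rw [h5 hlt (by simp [hw])] at hv; simp at hv
      · refine ⟨h1.lt_of_ne fun he => ?_, fun he hwσ => ?_⟩
        · rw [← h3 he, hw] at hv; simp at hv
        · have := (h4 he).1 (by rw [hw, hwσ])
          rw [hv] at this; simp at this
    obtain ⟨hlt, hnext⟩ := hord
    by_cases hwσ : w = σ a (R t)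
    · have hfar : far a := ⟨hv, lt_of_le_of_ne hlt fun he => hnext he hwσ⟩
      refine ⟨R t + 1, by have := hR t; omega, hfar.2, ?_⟩
      have hb : ∃ b, far b := ⟨a, hfar⟩
      have hsame : σ hb.choose (R t + 1) = σ a (R t + 1) := by
        by_cases hba : hb.choose = a
        · rw [hba]
        rcases h _ _ hba with ⟨_, h2, _⟩ | ⟨_, h2, _⟩
        · exact h2 _ hb.choose_spec.2
        · exact (h2 _ hfar.2).symm
      rw [← hsame]
      simpa [c, flip, dif_pos hb] using (exists_ne (σ hb.choose (R t + 1))).choose_spec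
    · exact ⟨R t, hR t, hlt, by simpa [c] using hwσ⟩

end Vale.Agent.P193.W4.Coset.Realise
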