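import Vale.Agent.P193.W4.Coset.Semantics
import Vale.Agent.P193.W4.Coset.Realise.Column
import Vale.Agent.P193.W4.Coset.Realise.Letters

/-!
P193, module W4 B, realisation: what a tower and a point of the action must satisfy at the fields
of infinite lines for all fields of finitely many cells to be those of a given point.
-/

namespace Vale.Agent.P193.W4.Coset.Realise

open Vale.Agent.P193.Action Filter

variable {k : ℕ} {em : ℕ → Option (List (Full k))}

/-! ### Infinite lines -/

/-- The line of kind `i` at the cell is kept at all levels. -/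
def LongJ (T : Tower k em) (v : Fin 3 → ℤ) (i : Fin 3) : Prop := ∀ m, KeepE (T.zs v m) i

/-- The projection line of kind `i` at the cell is kept at all levels. -/
def LongQ (T : Tower k em) (v : Fin 3 → ℤ) (i : Fin 3) : Prop := ∀ m, KeepP (T.zs v m) i

/-- The bridge of the track `s` at the cell is kept at all levels. -/
def LongB (T : Tower k em) (v : Fin 3 → ℤ) (s : Option (Fin k)) : Prop :=
  ∀ m, KeepB (T.zs v m) s

/-- The axis shows the sequence `p`. -/
def Key {α : Type} (T : Tower k em) (mk : α → Mid k) (v : Fin 3 → ℤ) (i : Fin 3) (p : ℕ → α) :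
    Prop :=
  ∀ m, T.zs v m i = some (mk (p m))

section Keep

variable (T : Tower k em) (v : Fin 3 → ℤ) {n Q : ℕ} (hnQ : n ≤ Q)

include hnQ

/-- A kept line has the same fold below. -/
lemma keep_eq {i : Fin 3} (h : ∀ m, n ≤ m → m < Q → KeepE (T.zs v m) i) :
    (T.stAt v n).flags.eq i = (T.stAt v Q).flags.eq i ∧
      ((T.stAt v Q).flags.eq i = true →
        (T.stAt v n).flags.rel i = (T.stAt v Q).flags.rel i) := by
  refine down (P := fun m => (T.stAt v m).flags.eq i = (T.stAt v Q).flags.eq i ∧
    ((T.stAt v Q).flags.eq i = true → (T.stAt v m).flags.rel i = (T.stAt v Q).flags.rel i))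
    (q := fun _ => False) hnQ (fun m h1 h2 hm => ?_) (.inr ⟨rfl, fun _ => rfl⟩)
  obtain ⟨e1, e2⟩ := hm.resolve_right id
  obtain ⟨s1, s2⟩ := keepE_step (f := (T.stAt v (m + 1)).flags) (h m h1 h2)
  rw [T.flags_step v m, s1, s2, e1]
  exact ⟨rfl, fun he => by rw [if_pos he, e2 he]⟩

/-- A kept projection line has the same fold below. -/
lemma keep_peq {i : Fin 3} (h : ∀ m, n ≤ m → m < Q → KeepP (T.zs v m) i) :
    (T.stAt v n).flags.peq i = (T.stAt v Q).flags.peq i ∧
      ((T.stAt v Q).flags.peq i = true →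
        (T.stAt v n).flags.prel i = (T.stAt v Q).flags.prel i) := by
  refine down (P := fun m => (T.stAt v m).flags.peq i = (T.stAt v Q).flags.peq i ∧
    ((T.stAt v Q).flags.peq i = true → (T.stAt v m).flags.prel i = (T.stAt v Q).flags.prel i))
    (q := fun _ => False) hnQ (fun m h1 h2 hm => ?_) (.inr ⟨rfl, fun _ => rfl⟩)
  obtain ⟨e1, e2⟩ := hm.resolve_right id
  obtain ⟨s1, s2⟩ := keepP_step (f := (T.stAt v (m + 1)).flags) (h m h1 h2)
  rw [T.flags_step v m, s1, s2, e1]
  exact ⟨rfl, fun he => by rw [if_pos he, e2 he]⟩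

/-- A kept bridge has the same fold below. -/
lemma keep_br {s : Option (Fin k)} (h : ∀ m, n ≤ m → m < Q → KeepB (T.zs v m) s) :
    (T.stAt v n).flags.br s = (T.stAt v Q).flags.br s := by
  refine down (P := fun m => (T.stAt v m).flags.br s = (T.stAt v Q).flags.br s)
    (q := fun _ => False) hnQ (fun m h1 h2 hm => ?_) (.inr rfl)
  rw [T.flags_step v m, keepB_step (h m h1 h2)]
  exact hm.resolve_right id

end Keep

variable {K : Type} [Group K] {g : Fin k → K}

/-- The fields of a point with the codes of the point of the action which it reads. -/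
structure Src (E : EffAction K g) (T : Tower k em) (c : K → (Fin 3 → ℤ) → JCell k)
    (A : ℕ → Bool) : Prop where
  one : ∀ u, One T (c u)
  reads : ∀ u, Reads T (c u) (codeAt E A u)
  mem : A ∈ E.Y
  edge : ∀ u t i v, (c u v).Q i t = (c (u * gs g t) v).Q i none

namespace Src

variable {E : EffAction K g} {T : Tower k em} {c : K → (Fin 3 → ℤ) → JCell k} {A : ℕ → Bool}
  (S : Src E T c A)

include S

lemma key_of_J {u : K} {v : Fin 3 → ℤ} {i : Fin 3} (hl : LongJ T v i)
    (h : ((c u v).J i).isSome) :
    Key T .full v i (codeAt E A u) ∧ Key T .full v (i + 1) (codeAt E A u) := by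
  choose d hd using hl
  have hp : ∀ n, IsPreW (List.ofFn fun l : Fin n => d l) (codeAt E A u) := fun n =>
    (S.one u).prefix_of_J (S.reads u) h fun l hl => by simpa using hd l
  have e : ∀ m, d m = codeAt E A u m := fun m => by
    have h := hp (m + 1) m (by simp)
    rwa [List.getElem_ofFn] at h
  exact ⟨fun m => by simp only [← e m]; exact (hd m).1, fun m => by simp only [← e m]; exact (hd m).2⟩

lemma key_of_B {u : K} {v : Fin 3 → ℤ} {s : Option (Fin k)} (hl : LongB T v s)
    (h : ((c u v).B).isSome) :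
    Key T .full v 0 (codeAt E A u) ∧ Key T .pad v 1 (fun m => codeAt E A u m s) := by
  choose d hd using hl
  have hp : ∀ n, IsPreW (List.ofFn fun l : Fin n => d l) (codeAt E A u) := fun n =>
    (S.one u).prefix_of_B (S.reads u) h fun l hl => by simpa using (hd l).1
  have e : ∀ m, d m = codeAt E A u m := fun m => by
    have h := hp (m + 1) m (by simp)
    rwa [List.getElem_ofFn] at h
  exact ⟨fun m => by simp only [← e m]; exact (hd m).1, fun m => by simp only [← e m]; exact (hd m).2⟩

lemma key_of_Q {u : K} {v : Fin 3 → ℤ} {i : Fin 3} {t : Option (Fin k)} (hl : LongQ T v i)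
    (h : ((c u v).Q i t).isSome) :
    Key T .pad v i (fun m => codeAt E A u m t) ∧
      Key T .pad v (i + 1) (fun m => codeAt E A u m t) := by
  choose d hd using hl
  have hp : ∀ n, IsPreW (List.ofFn fun l : Fin n => d l) (fun m => codeAt E A u m t) := fun n =>
    (S.one u).prefix_of_Q (S.reads u) h fun l hl => by simpa using hd l
  have e : ∀ m, d m = codeAt E A u m t := fun m => by
    have h := hp (m + 1) m (by simp)
    rwa [List.getElem_ofFn] at h
  exact ⟨fun m => by simp only [← e m]; exact (hd m).1, fun m => by simp only [← e m]; exact (hd m).2⟩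

end Src

/-! ### What is wanted -/

/-- `o` is the value of a slot with string `σ` along `p`. -/
def Val {α : Type} (σ : List α) (p : ℕ → α) (o : Option α) : Prop :=
  (IsPreW σ p → o = some (p σ.length)) ∧ (¬IsPreW σ p → o = none)

lemma Val.eq {α : Type} {σ : List α} {p : ℕ → α} {o o' : Option α} (h : Val σ p o)
    (h' : Val σ p o') : o = o' := by
  by_cases hp : IsPreW σ p
  · rw [h.1 hp, h'.1 hp]
  · rw [h.2 hp, h'.2 hp]

lemma Val.congr {α : Type} {σ : List α} {p p' : ℕ → α} {o : Option α} (h : Val σ p o)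
    (he : ∀ l ≤ σ.length, p l = p' l) : Val σ p' o := by
  have hiff : IsPreW σ p ↔ IsPreW σ p' :=
    forall_congr' fun l => forall_congr' fun hl => by rw [he l hl.le]
  exact ⟨fun hp => by rw [h.1 (hiff.2 hp), he _ le_rfl], fun hp => h.2 fun h' => hp (hiff.1 h')⟩

lemma Val.none_of {α : Type} {σ : List α} {p : ℕ → α} {l : ℕ} (hl : l < σ.length)
    (hne : σ[l] ≠ p l) : Val σ p none :=
  ⟨fun hp => absurd (hp l hl) hne, fun _ => rfl⟩

lemma val_J {T : Tower k em} {c : (Fin 3 → ℤ) → JCell k} {p : ℕ → Full k}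
    (h : Reads T c p) {v : Fin 3 → ℤ} {i : Fin 3} {σ : List (Full k)} (hL : T.Line v i σ) :
    Val σ p ((c v).J i) :=
  ⟨fun hp => by rw [h.line hL, h.slot hp], fun hp => by rw [h.line hL, h.slot_off hp]⟩

lemma val_B {T : Tower k em} {c : (Fin 3 → ℤ) → JCell k} {p : ℕ → Full k}
    (h : Reads T c p) {v : Fin 3 → ℤ} {s : Option (Fin k)} {σ : List (Full k)}
    (hL : T.Bridge v s σ) : Val σ p (c v).B :=
  ⟨fun hp => by rw [h.bridge hL, h.slot hp], fun hp => by rw [h.bridge hL, h.slot_off hp]⟩

lemma val_Q {T : Tower k em} {c : (Fin 3 → ℤ) → JCell k} {p : ℕ → Full k}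
    (h : Reads T c p) {v : Fin 3 → ℤ} {i : Fin 3} {π : List Bool} (t : Option (Fin k))
    (hL : T.PLine v i π) : Val π (fun m => p m t) ((c v).Q i t) :=
  ⟨fun hp => by rw [h.pline t hL, h.pslot hp], fun hp => by rw [h.pline t hL, h.pslot_off hp]⟩

variable (E : EffAction K g) (T : Tower k em) (c : K → (Fin 3 → ℤ) → JCell k) (A : ℕ → Bool)

/-- The new tower and point give the values of the infinite lines that follow the old point. -/
structure Req (T' : Tower k em) (y : ℕ → Bool) (U : Finset (K × (Fin 3 → ℤ))) : Prop where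
  J : ∀ p ∈ U, ∀ i, LongJ T p.2 i → (T.stAt p.2 0).flags.eq i = true →
    Key T .full p.2 i (codeAt E A p.1) →
    ∀ σ, T'.Line p.2 i σ → Val σ (codeAt E y p.1) ((c p.1 p.2).J i)
  B : ∀ p ∈ U, ∀ s, LongB T p.2 s → (T.stAt p.2 0).flags.br s = true →
    Key T .full p.2 0 (codeAt E A p.1) →
    ∀ σ, T'.Bridge p.2 s σ → Val σ (codeAt E y p.1) (c p.1 p.2).B
  Q : ∀ p ∈ U, ∀ i t, LongQ T p.2 i → (T.stAt p.2 0).flags.peq i = true →
    Key T .pad p.2 i (fun m => codeAt E A p.1 m t) →
    ∀ π, T'.PLine p.2 i π → Val π (fun m => codeAt E y p.1 m t) ((c p.1 p.2).Q i t)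

/-- The level is above everything that happens to finitely many cells. -/
structure Good (U : Finset (K × (Fin 3 → ℤ))) (Q : ℕ) : Prop where
  settled : ∀ p ∈ U, Settled T p.2 0 Q
  key : ∀ p ∈ U, ∀ i, (∀ m < Q, T.zs p.2 m i = some (.full (codeAt E A p.1 m))) →
    Key T .full p.2 i (codeAt E A p.1)
  pkey : ∀ p ∈ U, ∀ i t, (∀ m < Q, T.zs p.2 m i = some (.pad (codeAt E A p.1 m t))) →
    Key T .pad p.2 i (fun m => codeAt E A p.1 m t)

/-- Eventually the level is above everything. -/
theorem eventually_good (U : Finset (K × (Fin 3 → ℤ))) : ∀ᶠ Q in atTop, Good E T A U Q := by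
  have dich : ∀ q : ℕ → Prop, ∀ᶠ Q in atTop, (∀ m < Q, q m) → ∀ m, q m := by
    intro q
    by_cases h : ∀ m, q m
    · exact Eventually.of_forall fun Q _ => h
    push Not at h
    obtain ⟨m, hm⟩ := h
    exact eventually_atTop.2 ⟨m + 1, fun Q hQ hq => absurd (hq m (by omega)) hm⟩
  filter_upwards [(Filter.eventually_all_finset U).2 fun p _ => eventually_settled T p.2 0,
    (Filter.eventually_all_finset U).2 fun p _ => eventually_all.2 fun i =>
      dich fun m => T.zs p.2 m i = some (.full (codeAt E A p.1 m)),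
    (Filter.eventually_all_finset U).2 fun p _ => eventually_all.2 fun i =>
      eventually_all.2 fun t => dich fun m => T.zs p.2 m i = some (.pad (codeAt E A p.1 m t))]
    with Q h1 h2 h3
  exact ⟨h1, h2, h3⟩

variable {E T c A}

lemma Good.longJ {U : Finset (K × (Fin 3 → ℤ))} {Q : ℕ} (G : Good E T A U Q)
    {p : K × (Fin 3 → ℤ)} (hp : p ∈ U) {i : Fin 3} (hl : LongJ T p.2 i) :
    Joined T p.2 Q i ∧ Joined T p.2 Q (i + 1) ∧ AboveE T Q i :=
  ((G.settled p hp).E i).resolve_left fun ⟨m, _, _, hm⟩ => hm (hl m)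

lemma Good.longQ {U : Finset (K × (Fin 3 → ℤ))} {Q : ℕ} (G : Good E T A U Q)
    {p : K × (Fin 3 → ℤ)} (hp : p ∈ U) {i : Fin 3} (hl : LongQ T p.2 i) :
    Joined T p.2 Q i ∧ Joined T p.2 Q (i + 1) ∧ AboveP T Q i :=
  ((G.settled p hp).P i).resolve_left fun ⟨m, _, _, hm⟩ => hm (hl m)

lemma Good.longB {U : Finset (K × (Fin 3 → ℤ))} {Q : ℕ} (G : Good E T A U Q)
    {p : K × (Fin 3 → ℤ)} (hp : p ∈ U) {s : Option (Fin k)} (hl : LongB T p.2 s) :
    Joined T p.2 Q 0 ∧ Joined T p.2 Q 1 ∧ AboveB T Q s :=
  ((G.settled p hp).B s).resolve_left fun ⟨m, _, _, hm⟩ => hm (hl m)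

/-- The flags of a long line at a settled cell are those of the origin at the high level. -/
lemma longJ_top {v : Fin 3 → ℤ} {Q : ℕ} {i : Fin 3} (hl : LongJ T v i) (h0 : Joined T v Q i)
    (h1 : Joined T v Q (i + 1)) :
    (T.stAt v 0).flags.eq i = (T.stAt 0 Q).flags.eq i := by
  rw [(keep_eq T v (Nat.zero_le Q) fun m _ _ => hl m).1, Tower.stAt, Tower.stAt]
  exact (T.kind_congr Q h0 h1).1

lemma longQ_top {v : Fin 3 → ℤ} {Q : ℕ} {i : Fin 3} (hl : LongQ T v i) (h0 : Joined T v Q i)
    (h1 : Joined T v Q (i + 1)) :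
    (T.stAt v 0).flags.peq i = (T.stAt 0 Q).flags.peq i := by
  rw [(keep_peq T v (Nat.zero_le Q) fun m _ _ => hl m).1, Tower.stAt, Tower.stAt]
  exact (T.kind_congr Q h0 h1).2.1

lemma longB_top {v : Fin 3 → ℤ} {Q : ℕ} {s : Option (Fin k)} (hl : LongB T v s)
    (h0 : Joined T v Q 0) (h1 : Joined T v Q 1) :
    (T.stAt v 0).flags.br s = (T.stAt 0 Q).flags.br s := by
  rw [keep_br T v (Nat.zero_le Q) fun m _ _ => hl m, Tower.stAt, Tower.stAt, T.br_congr Q h0 h1]

/-- All fields of a cell are those wanted. -/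
theorem fields_eq (S : Src E T c A) {U : Finset (K × (Fin 3 → ℤ))} {Q : ℕ}
    (G : Good E T A U Q) {T' : Tower k em} {y : ℕ → Bool} (hR : Req E T c A T' y U)
    (hz : ∀ v m, m ≤ Q → T'.zs v m = T.zs v m) (hreset : T'.Reset)
    {p : K × (Fin 3 → ℤ)} (hp : p ∈ U)
    (hy : ∀ l ≤ Q, codeAt E y p.1 l = codeAt E A p.1 l)
    (hf : (T'.stAt p.2 0).flags = (T.stAt p.2 0).flags)
    {c' : (Fin 3 → ℤ) → JCell k} (ho : One T' c') (hr : Reads T' c' (codeAt E y p.1)) :
    c' p.2 = c p.1 p.2 := by
  obtain ⟨u, v⟩ := p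
  simp only at hy hf hr ⊢
  have dead : ∀ i, ∃ n, T'.zs v n i = none := fun i => by
    obtain ⟨n, -, hn⟩ := hreset v i 0
    exact ⟨n, hn⟩
  obtain ⟨hJ, hB, hQ⟩ : PLift ((c' v).J = (c u v).J) × PLift ((c' v).B = (c u v).B) ×
      PLift ((c' v).Q = (c u v).Q) := by
    refine ⟨⟨funext fun i => ?_⟩, ⟨?_⟩, ⟨funext fun i => funext fun t => ?_⟩⟩
    · rcases he : (T.stAt v 0).flags.eq i with _ | _
      · rw [((S.one u).cell v).absentJ i he, (ho.cell v).absentJ i (hf ▸ he)]
      obtain ⟨n, hn⟩ := dead i
      obtain ⟨σ, hL, -⟩ := Tower.exists_line (hf ▸ he) hn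
      refine (val_J hr hL).eq ?_
      rcases eq_cases T v he with ⟨R, -, hR1, hR2⟩ | hall
      · -- a finite line: the same slot
        rcases lt_or_ge R Q with hlt | hge
        · have hlen : σ.length = R := by
            rcases lt_trichotomy σ.length R with h | h | h
            · obtain ⟨d, e, -⟩ := hR2 σ.length (Nat.zero_le _) h
              rw [← hz v _ (by omega), hL.1] at e
              cases e
            · exact h
            · have e := (hL.2 R h).1
              rw [hz v R hlt.le, hR1] at e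
              cases e
          have hL' : T.Line v i σ := ⟨by rw [← hz v _ (by omega)]; exact hL.1, fun l hl => by
            rw [← hz v l (by omega)]; exact hL.2 l hl⟩
          exact (val_J (S.reads u) hL').congr fun l hl => (hy l (by omega)).symm
        · -- a marker above the level is impossible
          exfalso
          rcases (G.settled (u, v) hp).E i with ⟨m, _, hm, hk⟩ | ⟨h0, _, ha⟩
          · exact hk (hR2 m (Nat.zero_le _) (by omega))
          · obtain ⟨d, e, -⟩ := ha R hge
            rw [← zs_merge T h0 hge, hR1] at e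
            cases e
      have hl : LongJ T v i := fun m => hall m (Nat.zero_le m)
      have hlong : ∀ m, m ≤ Q → m < σ.length := fun m hm => by
        by_contra hc
        obtain ⟨d, e, -⟩ := hl σ.length
        rw [← hz v _ (by omega), hL.1] at e
        cases e
      by_cases hk : ∀ m < Q, T.zs v m i = some (.full (codeAt E A u m))
      · exact hR.J (u, v) hp i hl he (G.key (u, v) hp i hk) σ hL
      push Not at hk
      obtain ⟨m, hm, hne⟩ := hk
      have hnone : (c u v).J i = none := by
        by_contra hs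
        exact hne ((S.key_of_J hl (Option.ne_none_iff_isSome.1 hs)).1 m)
      rw [hnone]
      refine Val.none_of (hlong m hm.le) fun e => hne ?_
      rw [← hz v m hm.le, (hL.2 m (hlong m hm.le)).1, e, hy m hm.le]
    · by_cases he : (T.stAt v 0).flags.HasB
      swap
      · rw [((S.one u).cell v).absentB he, (ho.cell v).absentB (hf ▸ he)]
      obtain ⟨s, hs⟩ := he
      obtain ⟨n, hn⟩ := dead 0
      obtain ⟨σ, hL, -⟩ := Tower.exists_bridge (s := s) (hf ▸ hs) hn
      refine (val_B hr hL).eq ?_
      rcases br_cases T v hs with ⟨R, -, ⟨hR1, hR1'⟩, hR2⟩ | hall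
      · rcases lt_or_ge R Q with hlt | hge
        · have hlen : σ.length = R := by
            rcases lt_trichotomy σ.length R with h | h | h
            · obtain ⟨d, e, -⟩ := hR2 σ.length (Nat.zero_le _) h
              rw [← hz v _ (by omega), hL.1.1] at e
              cases e
            · exact h
            · have e := (hL.2 R h).1
              rw [hz v R hlt.le, hR1] at e
              cases e
          have hL' : T.Bridge v s σ := ⟨by rw [← hz v _ (by omega)]; exact hL.1, fun l hl => by
            rw [← hz v l (by omega)]; exact hL.2 l hl⟩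
          exact (val_B (S.reads u) hL').congr fun l hl => (hy l (by omega)).symm
        · exfalso
          rcases (G.settled (u, v) hp).B s with ⟨m, _, hm, hk⟩ | ⟨h0, _, ha⟩
          · exact hk (hR2 m (Nat.zero_le _) (by omega))
          · obtain ⟨d, e, -⟩ := ha R hge
            rw [← zs_merge T h0 hge, hR1] at e
            cases e
      have hl : LongB T v s := fun m => hall m (Nat.zero_le m)
      have hlong : ∀ m, m ≤ Q → m < σ.length := fun m hm => by
        by_contra hc
        obtain ⟨d, e, -⟩ := hl σ.length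
        rw [← hz v _ (by omega), hL.1.1] at e
        cases e
      by_cases hk : ∀ m < Q, T.zs v m 0 = some (.full (codeAt E A u m))
      · exact hR.B (u, v) hp s hl hs (G.key (u, v) hp 0 hk) σ hL
      push Not at hk
      obtain ⟨m, hm, hne⟩ := hk
      have hnone : (c u v).B = none := by
        by_contra hs'
        exact hne ((S.key_of_B hl (Option.ne_none_iff_isSome.1 hs')).1 m)
      rw [hnone]
      refine Val.none_of (hlong m hm.le) fun e => hne ?_
      rw [← hz v m hm.le, (hL.2 m (hlong m hm.le)).1, e, hy m hm.le]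
    · rcases he : (T.stAt v 0).flags.peq i with _ | _
      · rw [((S.one u).cell v).absentQ i t he, (ho.cell v).absentQ i t (hf ▸ he)]
      obtain ⟨n, hn⟩ := dead i
      obtain ⟨π, hL, -⟩ := Tower.exists_pline (hf ▸ he) hn
      refine (val_Q hr t hL).eq ?_
      rcases peq_cases T v he with ⟨R, -, hR1, hR2⟩ | hall
      · rcases lt_or_ge R Q with hlt | hge
        · have hlen : π.length = R := by
            rcases lt_trichotomy π.length R with h | h | h
            · obtain ⟨d, e, -⟩ := hR2 π.length (Nat.zero_le _) h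
              rw [← hz v _ (by omega), hL.1] at e
              cases e
            · exact h
            · have e := (hL.2 R h).1
              rw [hz v R hlt.le, hR1] at e
              cases e
          have hL' : T.PLine v i π := ⟨by rw [← hz v _ (by omega)]; exact hL.1, fun l hl => by
            rw [← hz v l (by omega)]; exact hL.2 l hl⟩
          exact (val_Q (S.reads u) t hL').congr fun l hl => by rw [hy l (by omega)]
        · exfalso
          rcases (G.settled (u, v) hp).P i with ⟨m, _, hm, hk⟩ | ⟨h0, _, ha⟩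
          · exact hk (hR2 m (Nat.zero_le _) (by omega))
          · obtain ⟨d, e, -⟩ := ha R hge
            rw [← zs_merge T h0 hge, hR1] at e
            cases e
      have hl : LongQ T v i := fun m => hall m (Nat.zero_le m)
      have hlong : ∀ m, m ≤ Q → m < π.length := fun m hm => by
        by_contra hc
        obtain ⟨d, e, -⟩ := hl π.length
        rw [← hz v _ (by omega), hL.1] at e
        cases e
      by_cases hk : ∀ m < Q, T.zs v m i = some (.pad (codeAt E A u m t))
      · exact hR.Q (u, v) hp i t hl he (G.pkey (u, v) hp i t hk) π hL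
      push Not at hk
      obtain ⟨m, hm, hne⟩ := hk
      have hnone : (c u v).Q i t = none := by
        by_contra hs'
        exact hne ((S.key_of_Q hl (Option.ne_none_iff_isSome.1 hs')).1 m)
      rw [hnone]
      refine Val.none_of (hlong m hm.le) fun e => hne ?_
      rw [← hz v m hm.le, (hL.2 m (hlong m hm.le)).1, e, hy m hm.le]
  cases hcv : c' v
  cases hcv' : c u v
  rw [hcv, hcv'] at hJ hB hQ
  simp only at hJ hB hQ
  simp [hJ.down, hB.down, hQ.down]

end Vale.Agent.P193.W4.Coset.Realise
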