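import Vale.Agent.P193.W4.Coset.Realise.Wit

/-!
P193, module W4 B, realisation: strings of axes kept above a high level, the slot of a line of the
new tower, and its value when the letters of the block are those chosen.
-/

namespace Vale.Agent.P193.W4.Coset.Realise

open Vale.Agent.P193.Action

variable {k : ℕ} {em : ℕ → Option (List (Full k))} {K : Type} [Group K] {g : Fin k → K}
  {E : EffAction K g} {A : ℕ → Bool}

/-- From `Q` on the axis shows the code of the coset `w` at the origin. -/
def KeyTop (E : EffAction K g) (A : ℕ → Bool) (T : Tower k em) (Q : ℕ) (w : K) (i : Fin 3) :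
    Prop :=
  ∀ m, Q ≤ m → T.zs 0 m i = some (.full (codeAt E A w m))

/-- From `Q` on the axis shows the own track of the coset `w` at the origin. -/
def PadTop (E : EffAction K g) (A : ℕ → Bool) (T : Tower k em) (Q : ℕ) (w : K) (i : Fin 3) :
    Prop :=
  ∀ m, Q ≤ m → T.zs 0 m i = some (.pad (own E A w m))

variable {T : Tower k em} {Q : ℕ}

lemma keyTop_of_key {v : Fin 3 → ℤ} {i : Fin 3} {u : K} (hk : Key T .full v i (codeAt E A u))
    (hv : Joined T v Q i) : KeyTop E A T Q u i :=
  fun m hm => (zs_merge T hv hm).symm.trans (hk m)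

lemma padTop_of_key {v : Fin 3 → ℤ} {i : Fin 3} {u : K} {t : Option (Fin k)} (hA : A ∈ E.Y)
    (hk : Key T .pad v i fun m => codeAt E A u m t) (hv : Joined T v Q i) :
    PadTop E A T Q (u * gs g t) i := fun m hm => by
  rw [← zs_merge T hv hm, hk m]
  simp only [codeAt_track E hA]

lemma KeyTop.coset (hA : A ∈ E.Y) {u w : K} {i : Fin 3} (h : KeyTop E A T Q u i)
    (h' : KeyTop E A T Q w i) : u = w := by
  refine coset_eq_of_tail E hA (A := Q) fun m hm => ?_
  have e := (h m hm).symm.trans (h' m hm)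
  simp only [Option.some.injEq, Mid.full.injEq] at e
  rw [← codeAt_none E hA, ← codeAt_none E hA, e]

lemma PadTop.coset (hA : A ∈ E.Y) {u w : K} {i : Fin 3} (h : PadTop E A T Q u i)
    (h' : PadTop E A T Q w i) : u = w := by
  refine coset_eq_of_tail E hA (A := Q) fun m hm => ?_
  have e := (h m hm).symm.trans (h' m hm)
  simpa using e

lemma AboveE.spread {i a : Fin 3} {w : K} (h : AboveE T Q i) (ha : KeyTop E A T Q w a)
    (hai : a = i ∨ a = i + 1) : KeyTop E A T Q w i ∧ KeyTop E A T Q w (i + 1) := by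
  have key : ∀ m, Q ≤ m → T.zs 0 m i = some (.full (codeAt E A w m)) ∧
      T.zs 0 m (i + 1) = some (.full (codeAt E A w m)) := fun m hm => by
    obtain ⟨d, e1, e2⟩ := h m hm
    have e := ha m hm
    rcases hai with rfl | rfl
    · rw [e1] at e; exact ⟨e1.trans e, e2.trans e⟩
    · rw [e2] at e; exact ⟨e1.trans e, e2.trans e⟩
  exact ⟨fun m hm => (key m hm).1, fun m hm => (key m hm).2⟩

lemma AboveP.spread {i a : Fin 3} {w : K} (h : AboveP T Q i) (ha : PadTop E A T Q w a)
    (hai : a = i ∨ a = i + 1) : PadTop E A T Q w i ∧ PadTop E A T Q w (i + 1) := by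
  have key : ∀ m, Q ≤ m → T.zs 0 m i = some (.pad (own E A w m)) ∧
      T.zs 0 m (i + 1) = some (.pad (own E A w m)) := fun m hm => by
    obtain ⟨d, e1, e2⟩ := h m hm
    have e := ha m hm
    rcases hai with rfl | rfl
    · rw [e1] at e; exact ⟨e1.trans e, e2.trans e⟩
    · rw [e2] at e; exact ⟨e1.trans e, e2.trans e⟩
  exact ⟨fun m hm => (key m hm).1, fun m hm => (key m hm).2⟩

/-- Two kinds share an axis. -/
lemma kinds_meet (i j : Fin 3) :
    ∃ a, (a = i ∨ a = i + 1) ∧ (a = j ∨ a = j + 1) := by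
  revert i j; decide

/-- The value of a slot whose letters are given below `i₀` and chosen above. -/
lemma val_chosen {α : Type} {σ : List α} {i₀ j : ℕ} {p c s : ℕ → α} {e : Option α}
    (hlen : σ.length = i₀ + j) (hlow : ∀ l (h : l < σ.length), l < i₀ → σ[l] = p l)
    (hhigh : ∀ l (h : l < σ.length), i₀ ≤ l → σ[l] = s l)
    (hc : ∀ l, i₀ ≤ l → l ≤ σ.length → p l = c l)
    (hch : (∀ v, e = some v → (∀ l < i₀ + j, c l = s l) ∧ c (i₀ + j) = v) ∧
      (e = none → ∃ l, i₀ ≤ l ∧ l < i₀ + j ∧ c l ≠ s l)) : Val σ p e := by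
  rcases e with _ | v
  · obtain ⟨l, h1, h2, h3⟩ := hch.2 rfl
    refine Val.none_of (l := l) (by omega) ?_
    rw [hhigh l (by omega) h1, hc l h1 (by omega)]
    exact fun e => h3 e.symm
  · obtain ⟨h1, h2⟩ := hch.1 v rfl
    have hp : IsPreW σ p := fun l hl => by
      by_cases hl0 : l < i₀
      · exact hlow l hl hl0
      · rw [hhigh l hl (by omega), hc l (by omega) hl.le, h1 l (by omega)]
    refine ⟨fun _ => ?_, fun h => absurd hp h⟩
    rw [hc _ (by omega) le_rfl, hlen, h2]

section Slot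

variable {P : Plan k} {T' : Tower k em} (hB : Built T P T') (hQi : P.Q < P.i₀)

include hB hQi

/-- The slot of a line of the new tower on a kept axis. -/
lemma slot_full {v : Fin 3 → ℤ} {a : Fin 3} {w : K} (hv : Joined T v P.Q a)
    (hF : FullAbove T P.Q a) (hk : Key T .full v a (codeAt E A w)) {σ : List (Full k)}
    (hhead : T'.zs v σ.length a = some .hash)
    (hlet : ∀ l (h : l < σ.length), T'.zs v l a = some (.full σ[l])) {j : ℕ}
    (hj : dig P.wit j a = some .hash)
    (hjb : ∀ j' < j, ∃ d, dig P.wit j' a = some (.full d)) :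
    σ.length = P.i₀ + j ∧ (∀ l (h : l < σ.length), l ≤ P.Q → σ[l] = codeAt E A w l) ∧
      (∀ l (h : l < σ.length), P.Q < l → l < P.i₀ → σ[l] = P.d l) ∧
      ∀ l (h : l < σ.length), P.i₀ ≤ l → σ[l] = fullL (dig P.wit (l - P.i₀) a) := by
  refine ⟨mark_full hB hQi hv hF (fun m _ => ⟨_, hk m⟩) hhead
    (fun m hm => ⟨_, hlet m hm⟩) hj hjb, fun l h hl => ?_, fun l h h1 h2 => ?_,
    fun l h hl => ?_⟩
  · have e := hlet l h
    rw [(zs_low hB.low v l hl).1, hk l] at e
    simpa using e.symm
  · have e := hlet l h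
    rw [zs_high hB hv h1, col_full hF h2] at e
    simpa using e.symm
  · have e := hlet l h
    have e' := zs_list hB hQi hv hF.not_word (l - P.i₀)
    rw [Nat.add_sub_cancel' hl, e] at e'
    simp [← e', fullL, Tower.fullOf]

/-- The slot of a projection line of the new tower on a kept axis. -/
lemma slot_pad {v : Fin 3 → ℤ} {a : Fin 3} {p : ℕ → Bool} (hv : Joined T v P.Q a)
    (hF : PadAbove T P.Q a) (hk : Key T .pad v a p) {π : List Bool}
    (hhead : T'.zs v π.length a = some .phash)
    (hlet : ∀ l (h : l < π.length), T'.zs v l a = some (.pad π[l])) {j : ℕ}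
    (hj : dig P.wit j a = some .phash)
    (hjb : ∀ j' < j, ∃ d, dig P.wit j' a = some (.pad d)) :
    π.length = P.i₀ + j ∧ (∀ l (h : l < π.length), l ≤ P.Q → π[l] = p l) ∧
      (∀ l (h : l < π.length), P.Q < l → l < P.i₀ → π[l] = P.b l) ∧
      ∀ l (h : l < π.length), P.i₀ ≤ l → π[l] = padL (dig P.wit (l - P.i₀) a) := by
  refine ⟨mark_pad hB hQi hv hF (fun m _ => ⟨_, hk m⟩) hhead
    (fun m hm => ⟨_, hlet m hm⟩) hj hjb, fun l h hl => ?_, fun l h h1 h2 => ?_,
    fun l h hl => ?_⟩
  · have e := hlet l h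
    rw [(zs_low hB.low v l hl).1, hk l] at e
    simpa using e.symm
  · have e := hlet l h
    rw [zs_high hB hv h1, col_pad hF h2] at e
    simpa using e.symm
  · have e := hlet l h
    have e' := zs_list hB hQi hv hF.not_word (l - P.i₀)
    rw [Nat.add_sub_cancel' hl, e] at e'
    simp [← e', padL, Tower.padOf]

end Slot

end Vale.Agent.P193.W4.Coset.Realise
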