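import Vale.Agent.P193.W4.Coset.MinimalFree
import Vale.Agent.P193.W4.Coset.Realise.Value

/-!
P193, module W4 B, realisation, the case of an infinite line or bridge with a value: all such
lines lie in one coset; the new point has the letters of a block chosen in that coset.
-/

namespace Vale.Agent.P193.W4.Coset.Realise

open Vale.Agent.P193.Action

variable {k : ℕ} {em : ℕ → Option (List (Full k))} {K : Type} [Group K] {g : Fin k → K}
  {E : EffAction K g} {T : Tower k em} {c : K → (Fin 3 → ℤ) → JCell k} {A : ℕ → Bool}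
  {U : Finset (K × (Fin 3 → ℤ))} {Q : ℕ} {wit : List (Fin 3 → Option (Mid k))}

/-- A finite part of finitely many cosets depends on finitely many bits. -/
lemma dep_finset (E : EffAction K g) (Z : Finset K) (n : ℕ) :
    ∃ N, ∀ y y' : ℕ → Bool, (∀ j < N, y j = y' j) → ∀ u ∈ Z, ∀ i < n,
      codeAt E y u i = codeAt E y' u i := by
  choose N hN using fun u => Coset.codeAt_dep E u n
  exact ⟨Z.sup N, fun y y' h u hu =>
    hN u y y' fun j hj => h j (hj.trans_le (Finset.le_sup hu))⟩

lemma LongJ.key_next {v : Fin 3 → ℤ} {i : Fin 3} {p : ℕ → Full k} (hl : LongJ T v i)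
    (hk : Key T .full v i p) : Key T .full v (i + 1) p := fun m => by
  obtain ⟨d, e1, e2⟩ := hl m
  rw [e2, ← e1, hk m]

lemma LongQ.key_next {v : Fin 3 → ℤ} {i : Fin 3} {p : ℕ → Bool} (hl : LongQ T v i)
    (hk : Key T .pad v i p) : Key T .pad v (i + 1) p := fun m => by
  obtain ⟨d, e1, e2⟩ := hl m
  rw [e2, ← e1, hk m]

lemma LongB.key_next {v : Fin 3 → ℤ} {s : Option (Fin k)} {p : ℕ → Full k} (hl : LongB T v s)
    (hk : Key T .full v 0 p) : Key T .pad v 1 fun m => p m s := fun m => by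
  obtain ⟨d, e1, e2⟩ := hl m
  have e := hk m
  rw [e1] at e
  simp only [Option.some.injEq, Mid.full.injEq] at e
  rw [e2, e]

/-- Some infinite line or bridge among the cells has a value. -/
def Live (T : Tower k em) (c : K → (Fin 3 → ℤ) → JCell k) (U : Finset (K × (Fin 3 → ℤ))) :
    Prop :=
  ∃ p ∈ U, (∃ i, LongJ T p.2 i ∧ (T.stAt p.2 0).flags.eq i = true ∧ ((c p.1 p.2).J i).isSome) ∨
    ∃ s, LongB T p.2 s ∧ (T.stAt p.2 0).flags.br s = true ∧ ((c p.1 p.2).B).isSome

theorem fit_live (S : Src E T c A) (hgi : Function.Injective (gs g)) (G : Good E T A U Q)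
    (hwit : WitOK T Q wit) (hgen : GenOK E T Q) (h : Live T c U) : Fit E T c A U Q wit := by
  classical
  obtain ⟨⟨w, v₀⟩, hp₀, hlive⟩ := h
  simp only at hlive
  have hA := S.mem
  have axis1 : ∀ j, AboveE T Q j → ∀ s, AboveB T Q s → j = 2 := by
    intro j hj s hs
    fin_cases j
    · exact absurd hs.full.2 hj.full.2.not_pad
    · exact absurd hs.full.2 hj.full.1.not_pad
    · rfl
  -- all kept axes with letters show the code of `w`
  have hKB : ∀ s, AboveB T Q s → KeyTop E A T Q w 0 := by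
    intro s hs
    rcases hlive with ⟨i, hl, -, hi⟩ | ⟨s', hl, -, hs'⟩
    · obtain ⟨-, h1, ha⟩ := G.longJ hp₀ hl
      obtain rfl := axis1 i ha s hs
      exact keyTop_of_key (S.key_of_J hl hi).2 h1
    · exact keyTop_of_key (S.key_of_B hl hs').1 (G.longB hp₀ hl).1
  have hKE : ∀ j, AboveE T Q j → KeyTop E A T Q w j ∧ KeyTop E A T Q w (j + 1) := by
    intro j hj
    rcases hlive with ⟨i, hl, -, hi⟩ | ⟨s, hl, -, hs⟩
    · obtain ⟨h0, h1, -⟩ := G.longJ hp₀ hl
      obtain ⟨a, hai, haj⟩ := kinds_meet i j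
      refine hj.spread ?_ haj
      rcases hai with rfl | rfl
      · exact keyTop_of_key (S.key_of_J hl hi).1 h0
      · exact keyTop_of_key (S.key_of_J hl hi).2 h1
    · obtain rfl := axis1 j hj s (G.longB hp₀ hl).2.2
      exact hj.spread (keyTop_of_key (S.key_of_B hl hs).1 (G.longB hp₀ hl).1) (.inr rfl)
  -- at most one track has a bridge
  obtain ⟨s0, hs0⟩ : ∃ s0, ∀ s, AboveB T Q s → s = s0 := by
    by_cases hex : ∃ s, AboveB T Q s
    swap
    · exact ⟨none, fun s hs => absurd ⟨s, hs⟩ hex⟩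
    obtain ⟨s₁, h₁⟩ := hex
    refine ⟨s₁, fun s hs => ?_⟩
    by_contra hne
    obtain ⟨J, hJ⟩ := tracks_differ E hgi Q
    obtain ⟨m, hm, -, hm'⟩ := hJ (E.act w⁻¹ A) (E.mem _ A hA) s s₁ hne
    have e := hKB s hs m hm
    obtain ⟨d, e1, e2⟩ := hs m hm
    obtain ⟨d', e1', e2'⟩ := h₁ m hm
    rw [e] at e1 e1'
    simp only [Option.some.injEq, Mid.full.injEq] at e1 e1'
    rw [e2, ← e1, ← e1'] at e2'
    exact hm' (by simpa [codeAt] using e2')
  have hPT : AboveB T Q s0 → ∀ m, Q ≤ m → T.zs 0 m 1 = some (.pad (codeAt E A w m s0)) := by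
    intro hs m hm
    obtain ⟨d, e1, e2⟩ := hs m hm
    rw [hKB s0 hs m hm] at e1
    simp only [Option.some.injEq, Mid.full.injEq] at e1
    rw [e2, e1]
  obtain ⟨r, hr⟩ := exists_star T Q (codeAt E A w) fun m => codeAt E A w m s0
  have hcoordJ : ∀ v i, Joined T v Q i → Joined T v Q (i + 1) → AboveE T Q i →
      Key T .full v i (codeAt E A w) → Key T .full v (i + 1) (codeAt E A w) →
      v i = r i ∧ v (i + 1) = r (i + 1) := fun v i h0 h1 ha k0 k1 =>
    ⟨hr.coord_full ha.full.1 h0 k0 fun _ _ => rfl, hr.coord_full ha.full.2 h1 k1 fun _ _ => rfl⟩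
  have hcoordB : ∀ v s, Joined T v Q 0 → Joined T v Q 1 → AboveB T Q s → LongB T v s →
      Key T .full v 0 (codeAt E A w) → v 0 = r 0 ∧ v 1 = r 1 := fun v s h0 h1 ha hl k0 =>
    ⟨hr.coord_full ha.full.1 h0 k0 fun _ _ => rfl,
      hr.coord_pad ha.full.2 h1 (hl.key_next k0) fun m _ => by rw [hs0 s ha]⟩
  -- the markers in the list
  have hME : ∀ i, AboveE T Q i ∧ (T.stAt 0 Q).flags.eq i = true → ∃ j,
      dig wit j i = some .hash ∧ (∀ j' < j, KeepE (dig wit j') i) ∧
      (T.stAt 0 Q).flags.rel i = Tower.relTop Mid.hash Tower.fullOf (dig wit j (i + 1))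
        (dig wit (j + 1) (i + 1)) := by
    rintro i ⟨ha, he⟩
    obtain ⟨e1, e2⟩ := hwit.eqs i ha
    rw [← e1] at he
    obtain ⟨j, h1, h2, h3⟩ := folded_mark i wit he
    exact ⟨j, h1, h2, e2 ▸ h3⟩
  choose! jE hjE using hME
  obtain ⟨jB, hjB⟩ : ∃ j, AboveB T Q s0 ∧ (T.stAt 0 Q).flags.br s0 = true →
      (dig wit j 0 = some .hash ∧ dig wit j 1 = some .phash) ∧
        ∀ j' < j, KeepB (dig wit j') s0 := by
    by_cases hb : AboveB T Q s0 ∧ (T.stAt 0 Q).flags.br s0 = true
    swap
    · exact ⟨0, fun h => absurd h hb⟩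
    have he := hb.2
    rw [← hwit.brs s0 hb.1] at he
    obtain ⟨j, hj⟩ := folded_bmark s0 wit he
    exact ⟨j, fun _ => hj⟩
  let Kind : Option (Fin 3) → Prop := fun a =>
    a.elim (AboveB T Q s0 ∧ (T.stAt 0 Q).flags.br s0 = true)
      fun i => AboveE T Q i ∧ (T.stAt 0 Q).flags.eq i = true
  let ax : Option (Fin 3) → Fin 3 := fun a => a.elim 0 id
  let jF : Option (Fin 3) → ℕ := fun a => a.elim jB jE
  let val : Option (Fin 3) → Option (Full k) := fun a =>
    a.elim (c w r).B fun i => (c w r).J i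
  -- the block
  obtain ⟨N, hN⟩ := dep_finset E (U.image Prod.fst) (Q + 1)
  obtain ⟨i₀, hi₀, hblock⟩ := exists_block E hgi hA (max N (Q + 1)) (wit.length + 2) w
  let σF : Option (Fin 3) → ℕ → Full k := fun a l =>
    if i₀ ≤ l then fullL (dig wit (l - i₀) (ax a)) else fun _ => false
  have hlow : ∀ a b, ∀ l < i₀, σF a l = σF b l := fun a b l hl => by
    simp [σF, show ¬i₀ ≤ l by omega]
  have hσ : ∀ a j, σF a (i₀ + j) = fullL (dig wit j (ax a)) := fun a j => by simp [σF]
  have hE2 : ∀ i, Kind (some i) → ∀ j < jE i,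
      dig wit j i = some (.full (σF (some i) (i₀ + j))) ∧
      dig wit j (i + 1) = some (.full (σF (some i) (i₀ + j))) := fun i hi j hj => by
    rw [hσ]
    exact ((hjE i hi).2.1 j hj).letters
  have hord : ∀ a b : {a // Kind a}, a ≠ b →
      Ord (fun a : {a // Kind a} => i₀ + jF a.1) (fun a => σF a.1) (fun a => val a.1) a b ∨
      Ord (fun a : {a // Kind a} => i₀ + jF a.1) (fun a => σF a.1) (fun a => val a.1) b a := by
    have pairE : ∀ (i : Fin 3) (ha : Kind (some i)) (hb : Kind (some (i + 1))),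
        Ord (fun a : {a // Kind a} => i₀ + jF a.1) (fun a => σF a.1) (fun a => val a.1)
          ⟨some i, ha⟩ ⟨some (i + 1), hb⟩ := by
      intro i ha hb
      refine cross_ord (h := Mid.hash) (mk := Mid.full) (letter := Tower.fullOf)
        (fun _ _ e => Mid.full.inj e) (fun _ => by simp) (fun _ => rfl)
        (fun j => dig wit j (i + 1)) rfl rfl (hlow _ _) (fun j hj => (hE2 i ha j hj).2)
        (fun j hj => (hE2 (i + 1) hb j hj).1) (hjE _ hb).1 ?_
      obtain ⟨f1, f2⟩ := hr.eq_top ha.1.full.1 ha.1.full.2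
      have hn := ((S.one w).cell r).nested i (f1.trans ha.2)
        ((hr.eq_top hb.1.full.1 hb.1.full.2).1.trans hb.2)
      rw [f2 ha.2, (hjE i ha).2.2] at hn
      exact hn
    have pairB : ∀ (ha : Kind (some 2)) (hb : Kind none),
        Ord (fun a : {a // Kind a} => i₀ + jF a.1) (fun a => σF a.1) (fun a => val a.1)
          ⟨some 2, ha⟩ ⟨none, hb⟩ := by
      intro ha hb
      refine cross_ord (h := Mid.hash) (mk := Mid.full) (letter := Tower.fullOf)
        (fun _ _ e => Mid.full.inj e) (fun _ => by simp) (fun _ => rfl)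
        (fun j => dig wit j 0) rfl rfl (hlow _ _) (fun j hj => (hE2 2 ha j hj).2)
        (fun j hj => ?_) (hjB hb).1.1 ?_
      · rw [hσ]
        exact ((hjB hb).2 j hj).letters.1
      obtain ⟨f1, f2⟩ := hr.eq_top ha.1.full.1 ha.1.full.2
      have hn := ((S.one w).cell r).nestedB (f1.trans ha.2)
        ⟨s0, (hr.br_top hb.1.full.1 hb.1.full.2 fun _ _ => rfl).trans hb.2⟩
      rw [f2 ha.2, (hjE 2 ha).2.2] at hn
      exact hn
    rintro ⟨_ | i, ha⟩ ⟨_ | i', hb⟩ hne
    · exact absurd rfl hne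
    · obtain rfl := axis1 i' hb.1 s0 ha.1
      exact .inr (pairB hb ha)
    · obtain rfl := axis1 i ha.1 s0 hb.1
      exact .inl (pairB ha hb)
    · have hii : i' = i + 1 ∨ i = i' + 1 := by
        have : ∀ x y : Fin 3, x ≠ y → y = x + 1 ∨ x = y + 1 := by decide
        exact this i i' fun e => hne (Subtype.ext (congrArg some e))
      rcases hii with rfl | rfl
      · exact .inl (pairE i ha hb)
      · exact .inr (pairE i' hb ha)
  have hsome : ∃ a : {a // Kind a}, (val a.1).isSome := by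
    rcases hlive with ⟨i, hl, he, hi⟩ | ⟨s, hl, he, hs⟩
    · obtain ⟨h0, h1, ha⟩ := G.longJ hp₀ hl
      refine ⟨⟨some i, ha, (longJ_top hl h0 h1).symm.trans he⟩, ?_⟩
      obtain ⟨k0, k1⟩ := S.key_of_J hl hi
      obtain ⟨e0, e1⟩ := hcoordJ v₀ i h0 h1 ha k0 k1
      show ((c w r).J i).isSome
      rw [← ((S.one w).slide e0 e1).1]
      exact hi
    · obtain ⟨h0, h1, ha⟩ := G.longB hp₀ hl
      refine ⟨⟨none, ?_, ?_⟩, ?_⟩
      · rw [← hs0 s ha]; exact ha
      · rw [← hs0 s ha]; exact (longB_top hl h0 h1).symm.trans he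
      · obtain ⟨e0, e1⟩ := hcoordB v₀ s h0 h1 ha hl (S.key_of_B hl hs).1
        show ((c w r).B).isSome
        rw [← (S.one w).slideB e0 e1]
        exact hs
  obtain ⟨cl, hcl⟩ := choose_letters i₀ (fun a : {a // Kind a} => i₀ + jF a.1)
    (fun a => σF a.1) (fun a => val a.1) (fun a => Nat.le_add_right _ _) hord hsome
  obtain ⟨y, hy, hyN, hyB⟩ := hblock fun t => cl (i₀ + t)
  have hQi : Q < i₀ := by omega
  have hagree : ∀ u ∈ U.image Prod.fst, ∀ l ≤ Q, codeAt E y u l = codeAt E A u l :=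
    fun u hu l hl => hN y A (fun j hj => hyN j (by omega)) u hu l (by omega)
  have hwU : w ∈ U.image Prod.fst := Finset.mem_image.2 ⟨_, hp₀, rfl⟩
  have hblk : ∀ l, i₀ ≤ l → l ≤ i₀ + wit.length → codeAt E y w l = cl l := by
    intro l h1 h2
    have := hyB ⟨l - i₀, by omega⟩
    simpa [Nat.add_sub_cancel' h1] using this
  refine ⟨y, hy, i₀, codeAt E y w, fun m => codeAt E y w m s0, hQi,
    fun s hs _ m _ _ => by rw [hs0 s hs],
    fun p hp => hagree p.1 (Finset.mem_image.2 ⟨p, hp, rfl⟩), ?_, fun L fin T' hB => ?_⟩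
  · -- a match follows a bad word
    intro cw hcw hH hit
    rcases hgen cw hcw with hall | hbad
    swap
    · exact fun hg => hbad (genuine_mono E (f' := fun l => if l ≤ Q then cw l else codeAt E y w l)
        (show Q + 1 ≤ i₀ by omega) (fun l hl => if_pos (show l ≤ Q by omega)) hg)
    exfalso
    have hW : AboveW T Q := fun m hm => (hH m hm).1
    have h2 : ∀ {j}, FullAbove T Q j → j ≠ 2 := fun hf e => hf.not_word ⟨e, hW⟩
    have hK0 : KeyTop E A T Q w 0 := by
      rcases hlive with ⟨i, hl, -, -⟩ | ⟨s, hl, -, -⟩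
      · have ha := (G.longJ hp₀ hl).2.2
        obtain rfl := kind_low (i := i) hW (h2 ha.full.1) (h2 ha.full.2)
        exact (hKE 0 ha).1
      · exact hKB s (G.longB hp₀ hl).2.2
    obtain ⟨y', hy', hc'⟩ := exists_code E hall
    have htail : ∀ m, Q ≤ m → cw m = codeAt E A w m := by
      intro m hm
      obtain ⟨d, e0, -, e2⟩ := hit_above hH hit m hm
      rw [hcw (m + 1) (by omega), topLetter_starless] at e2
      rw [hK0 m hm] at e0
      simp only [Option.some.injEq, Mid.full.injEq] at e0 e2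
      rw [e2, e0]
    have hy'' : y' = E.act w⁻¹ A := eq_of_tail E hy' (E.mem _ A hA) (A := Q) fun m hm => by
      rw [← code_none E hy', hc', htail m hm, codeAt, code_none E (E.mem _ A hA)]
    subst hy''
    have hF0 : FullAbove T Q 0 := fun m hm => ⟨_, hK0 m hm⟩
    have key : ∀ j m, m + j = Q → (T.stAt r m).hit = true ∧
        (T.stAt r m).word = some (starless cw m) := by
      intro j
      induction j with
      | zero =>
        intro m hm
        obtain rfl : m = Q := by omega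
        rw [show T.stAt r m = T.stAt 0 m by rw [Tower.stAt, Tower.stAt, hr.tile]]
        exact ⟨hit, hcw m le_rfl⟩
      | succ j ih =>
        intro m hm
        obtain ⟨e1, e2⟩ := ih (m + 1) (by omega)
        have z2 := hr.pass hW m (by omega)
        have z0 := hr.full 0 hF0 m (by omega)
        rw [T.stAt_step]
        simp only [St.step, e2, e1, topLetter_starless, matchStep, z2, z0, wordStep,
          Option.map_some, take_starless cw (Nat.le_succ m), Bool.true_and]
        simp [← hc', codeAt]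
    have hkill := (key Q 0 (by omega)).1
    rcases hlive with ⟨i, hl, -, hi⟩ | ⟨s, hl, -, hs⟩
    · obtain ⟨h0, h1, ha⟩ := G.longJ hp₀ hl
      obtain ⟨k0, k1⟩ := S.key_of_J hl hi
      obtain rfl := kind_low (i := i) hW (h2 ha.full.1) (h2 ha.full.2)
      obtain ⟨e0, e1⟩ := hcoordJ v₀ 0 h0 h1 ha k0 k1
      rw [((S.one w).slide e0 e1).1, ((S.one w).cell r).killJ hkill] at hi
      simp at hi
    · obtain ⟨h0, h1, ha⟩ := G.longB hp₀ hl
      obtain ⟨e0, e1⟩ := hcoordB v₀ s h0 h1 ha hl (S.key_of_B hl hs).1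
      rw [(S.one w).slideB e0 e1, ((S.one w).cell r).killB hkill] at hs
      simp at hs
  -- the values
  refine ⟨?_, ?_, ?_⟩
  · rintro ⟨u, v⟩ hp i hl he hk σ hL
    simp only at hl he hk hL ⊢
    obtain ⟨h0, h1, ha⟩ := G.longJ hp hl
    simp only at h0 h1
    obtain rfl : u = w := (keyTop_of_key hk h0).coset hA (hKE i ha).1
    have hK : Kind (some i) := ⟨ha, (longJ_top hl h0 h1).symm.trans he⟩
    obtain ⟨e0, e1⟩ := hcoordJ v i h0 h1 ha hk (hl.key_next hk)
    rw [((S.one u).slide e0 e1).1]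
    obtain ⟨hlen, hs1, hs2, hs3⟩ := slot_full (a := i) hB hQi h0 ha.full.1 hk hL.1
      (fun l hl => (hL.2 l hl).1) (hjE i hK).1
      (fun j hj => ((hjE i hK).2.1 j hj).imp fun _ e => e.1)
    have hjl : jE i < wit.length := mark_lt (hjE i hK).1
    simp only at hlen hs1 hs2 hs3
    refine val_chosen (i₀ := i₀) (j := jE i) (c := cl) (s := σF (some i)) hlen
      (fun l hl hl0 => ?_) (fun l hl hl0 => ?_) (fun l h1 h2 => hblk l h1 (by omega))
      (hcl ⟨some i, hK⟩)
    · rcases le_or_gt l Q with hq | hq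
      · rw [hs1 l hl hq, hagree u hwU l hq]
      · exact hs2 l hl hq hl0
    · rw [hs3 l hl hl0]
      simp [σF, hl0, ax]
  · rintro ⟨u, v⟩ hp s hl he hk σ hL
    simp only at hl he hk hL ⊢
    obtain ⟨h0, h1, ha⟩ := G.longB hp hl
    simp only at h0 h1
    obtain rfl : u = w := (keyTop_of_key hk h0).coset hA (hKB s ha)
    obtain rfl := hs0 s ha
    have hK : Kind none := ⟨ha, (longB_top hl h0 h1).symm.trans he⟩
    obtain ⟨e0, e1⟩ := hcoordB v s h0 h1 ha hl hk
    rw [(S.one u).slideB e0 e1]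
    obtain ⟨hlen, hs1, hs2, hs3⟩ := slot_full (a := 0) hB hQi h0 ha.full.1 hk hL.1.1
      (fun l hl => (hL.2 l hl).1) (hjB hK).1.1
      (fun j hj => ((hjB hK).2 j hj).imp fun _ e => e.1)
    have hjl : jB < wit.length := mark_lt (hjB hK).1.1
    simp only at hlen hs1 hs2 hs3
    refine val_chosen (i₀ := i₀) (j := jB) (c := cl) (s := σF none) hlen
      (fun l hl hl0 => ?_) (fun l hl hl0 => ?_) (fun l h1 h2 => hblk l h1 (by omega))
      (hcl ⟨none, hK⟩)
    · rcases le_or_gt l Q with hq | hq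
      · rw [hs1 l hl hq, hagree u hwU l hq]
      · exact hs2 l hl hq hl0
    · rw [hs3 l hl hl0]
      simp [σF, hl0, ax]
  · rintro ⟨u, v⟩ hp i t hl he hk π hL
    simp only at hl he hk hL ⊢
    obtain ⟨h0, h1, ha⟩ := G.longQ hp hl
    simp only at h0 h1
    rcases hlive with ⟨i', hl', -, -⟩ | ⟨s, hl', hes, hs⟩
    · exfalso
      have ha' := (G.longJ hp₀ hl').2.2
      obtain ⟨a, hai, haj⟩ := kinds_meet i' i
      have hf : FullAbove T Q a := by rcases hai with rfl | rfl; exacts [ha'.full.1, ha'.full.2]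
      have hg : PadAbove T Q a := by rcases haj with rfl | rfl; exacts [ha.pad.1, ha.pad.2]
      exact hf.not_pad hg
    obtain ⟨g0, g1, hb⟩ := G.longB hp₀ hl'
    obtain rfl := hs0 s hb
    have hi1 : i = 1 := by
      fin_cases i
      · exact absurd ha.pad.1 hb.full.1.not_pad
      · rfl
      · exact absurd ha.pad.2 hb.full.1.not_pad
    subst hi1
    have hK : Kind none := ⟨hb, (longB_top hl' g0 g1).symm.trans hes⟩
    -- the two tracks are one
    have hw' : u * gs g t = w * gs g s := by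
      refine (padTop_of_key hA hk h0).coset hA fun m hm => ?_
      rw [hPT hb m hm, codeAt_track E hA]
    have htr : ∀ y' ∈ E.Y, ∀ m, codeAt E y' u m t = codeAt E y' w m s := fun y' hy' m => by
      rw [codeAt_track E hy', codeAt_track E hy', hw']
    obtain ⟨p0, p1⟩ : v 1 = r 1 ∧ v (1 + 1) = r (1 + 1) :=
      ⟨hr.coord_pad ha.pad.1 h0 hk fun m _ => htr A hA m,
        hr.coord_pad ha.pad.2 h1 (hl.key_next hk) fun m _ => htr A hA m⟩
    rw [S.edge, hw', ((S.one (w * gs g s)).slide p0 p1).2, ← S.edge]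
    -- the value of the bridge
    obtain ⟨e0, e1⟩ := hcoordB v₀ s g0 g1 hb hl' (S.key_of_B hl' hs).1
    rw [(S.one w).slideB e0 e1] at hs
    obtain ⟨bv, hbv⟩ := Option.isSome_iff_exists.1 hs
    obtain ⟨hchosen, hat⟩ := (hcl ⟨none, hK⟩).1 bv hbv
    have hQ : (c w r).Q 1 s = some (bv s) :=
      ((S.one w).cell r).proj s bv
        ((hr.br_top hb.full.1 hb.full.2 fun _ _ => rfl).trans hK.2)
        ((hr.peq_top ha.pad.1 ha.pad.2).1.trans ((longQ_top hl h0 h1).symm.trans he)) hbv
    obtain ⟨hlen, hp1, hp2, hp3⟩ := slot_pad (a := 1) hB hQi h0 ha.pad.1 hk hL.1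
      (fun l hl => (hL.2 l hl).1) (hjB hK).1.2
      (fun j hj => ⟨_, ((hjB hK).2 j hj).letters.2⟩)
    have hjl : jB < wit.length := mark_lt (hjB hK).1.2
    simp only at hlen hp1 hp2 hp3
    have hpre : IsPreW π (fun m => codeAt E y u m t) := by
      intro l hl
      show π[l] = codeAt E y u l t
      rw [htr y hy]
      rcases le_or_gt l Q with hq | hq
      · rw [hp1 l hl hq, htr A hA, hagree w hwU l hq]
      · by_cases hl0 : l < i₀
        · exact hp2 l hl hq hl0
        · rw [hp3 l hl (by omega), hblk l (by omega) (by omega),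
            hchosen l (by show l < i₀ + jB; omega), ((hjB hK).2 (l - i₀) (by omega)).letters.2]
          simp [σF, ax, padL, Tower.padOf, show i₀ ≤ l by omega]
    refine ⟨fun _ => ?_, fun hn => absurd hpre hn⟩
    show (c w r).Q 1 s = some (codeAt E y u π.length t)
    rw [hQ, htr y hy, hlen, hblk _ (by omega) (by omega)]
    exact congrArg (fun d : Full k => some (d s)) hat.symm

end Vale.Agent.P193.W4.Coset.Realise
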