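import Vale.Agent.P193.W4.Coset.Realise.Proj

/-!
P193, module W4 B, realisation, the case without values on infinite lines: the old point stays;
below the list the tower shows an extension of the word which begins no path, then for each coset
one bit against its own track.
-/

namespace Vale.Agent.P193.W4.Coset.Realise

open Vale.Agent.P193.Action

variable {k : ℕ} {em : ℕ → Option (List (Full k))} {K : Type} [Group K] {g : Fin k → K}
  {E : EffAction K g} {T : Tower k em} {c : K → (Fin 3 → ℤ) → JCell k} {A : ℕ → Bool}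
  {U : Finset (K × (Fin 3 → ℤ))} {Q : ℕ} {wit : List (Fin 3 → Option (Mid k))}

theorem fit_rest (S : Src E T c A) (G : Good E T A U Q) (hnot : ¬Live T c U)
    (hnotQ : ¬LiveQ T c U) : Fit E T c A U Q wit := by
  classical
  have hA := S.mem
  -- the word below `Q + 1`, and a bad extension of it
  obtain ⟨low, hlow⟩ : ∃ low : List (Full k), ∀ cw : ℕ → Full k,
      (∀ m, Q ≤ m → (T.stAt 0 m).word = some (starless cw m)) →
      low = List.ofFn fun l : Fin (Q + 1) => cw l := by
    by_cases hex : ∃ cw : ℕ → Full k, ∀ m, Q ≤ m → (T.stAt 0 m).word = some (starless cw m)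
    · obtain ⟨cw₀, h₀⟩ := hex
      refine ⟨List.ofFn fun l : Fin (Q + 1) => cw₀ l, fun cw hcw => ?_⟩
      have e := h₀ (Q + 1) (by omega)
      rw [hcw (Q + 1) (by omega)] at e
      exact congrArg List.ofFn (funext fun l => (starless_inj (Option.some.inj e) l.2).symm)
    · exact ⟨[], fun cw hcw => absurd ⟨cw, hcw⟩ hex⟩
  obtain ⟨v0, -, hconst, hbad⟩ := exists_bad_extension E low
  -- one level for each coset
  let zl : List K :=
    ((U.image Prod.fst ×ˢ (Finset.univ : Finset (Option (Fin k)))).image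
      fun q => q.1 * gs g q.2).toList
  let i₀ := Q + 1 + v0.length + zl.length
  let b : ℕ → Bool := fun l =>
    if h : l - (Q + 1) < v0.length then v0[l - (Q + 1)] none
    else !(own E A (zl.getD (l - (Q + 1) - v0.length) 1) l)
  have hflip : ∀ p ∈ U, ∀ s, ∃ l, Q < l ∧ l < i₀ ∧ b l ≠ own E A (p.1 * gs g s) l := by
    intro p hp s
    have hmem : p.1 * gs g s ∈ zl := Finset.mem_toList.2 (Finset.mem_image.2
      ⟨(p.1, s), Finset.mem_product.2 ⟨Finset.mem_image.2 ⟨p, hp, rfl⟩, Finset.mem_univ _⟩, rfl⟩)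
    obtain ⟨idx, hidx, he⟩ := List.getElem_of_mem hmem
    refine ⟨Q + 1 + v0.length + idx, by omega, by omega, ?_⟩
    have e1 : Q + 1 + v0.length + idx - (Q + 1) - v0.length = idx := by omega
    simp only [b, dif_neg (show ¬Q + 1 + v0.length + idx - (Q + 1) < v0.length by omega), e1,
      List.getD_eq_getElem?_getD, List.getElem?_eq_getElem hidx, he, Option.getD_some]
    exact Bool.not_ne_self _
  refine ⟨A, hA, i₀, fun l _ => b l, b, by omega, fun s _ _ m _ _ => rfl,
    fun p _ l _ => rfl, ?_, fun L fin T' hB => ⟨?_, ?_, ?_⟩⟩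
  · intro cw hcw _ _ hg
    obtain ⟨y, hy, hy'⟩ := hg
    refine hbad ⟨y, hy, fun l hl => ?_⟩
    have hlen : low.length = Q + 1 := by rw [hlow cw hcw, List.length_ofFn]
    have hl' : l < i₀ := by simp at hl; omega
    rw [hy' l (by simpa using hl'), List.getElem_ofFn]
    by_cases hlQ : l ≤ Q
    · simp only [hlQ, if_true]
      rw [List.getElem_append_left (by omega)]
      rw [List.getElem_of_eq (hlow cw hcw) (by omega), List.getElem_ofFn]
    · have hlv : l - (Q + 1) < v0.length := by simp at hl; omega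
      simp only [hlQ, if_false, b, dif_pos hlv]
      rw [List.getElem_append_right (by omega)]
      funext s
      have e : l - low.length = l - (Q + 1) := by omega
      exact (hconst _ (List.getElem_mem hlv) none s).trans (congrFun (getElem_congr_idx e.symm) s)
  · rintro ⟨u, v⟩ hp i hl he hkey σ hL
    simp only at hl he hkey hL ⊢
    obtain ⟨h0, -, ha⟩ := G.longJ hp hl
    rw [(none_of_not_live hnot hp).1 i hl he]
    obtain ⟨l, h1, h2, h3⟩ := hflip _ hp none
    obtain ⟨hlt, hσl⟩ := seg_full (a := i) hB h0 ha.full.1 hkey hL.1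
      (fun l hl => (hL.2 l hl).1) h1 h2
    refine Val.none_of hlt fun e => h3 ?_
    rw [hσl] at e
    exact (congrFun e none).trans (codeAt_track E hA u l none)
  · rintro ⟨u, v⟩ hp s hl he hkey σ hL
    simp only at hl he hkey hL ⊢
    obtain ⟨h0, -, ha⟩ := G.longB hp hl
    rw [(none_of_not_live hnot hp).2 s hl he]
    obtain ⟨l, h1, h2, h3⟩ := hflip _ hp none
    obtain ⟨hlt, hσl⟩ := seg_full (a := 0) hB h0 ha.full.1 hkey hL.1.1
      (fun l hl => (hL.2 l hl).1) h1 h2
    refine Val.none_of hlt fun e => h3 ?_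
    rw [hσl] at e
    exact (congrFun e none).trans (codeAt_track E hA u l none)
  · rintro ⟨u, v⟩ hp i t hl he hkey π hL
    simp only at hl he hkey hL ⊢
    obtain ⟨h0, -, ha⟩ := G.longQ hp hl
    rw [none_of_not_liveQ hnotQ hp hl he]
    obtain ⟨l, h1, h2, h3⟩ := hflip _ hp t
    obtain ⟨hlt, hπl⟩ := seg_pad (a := i) hB h0 ha.pad.1 hkey hL.1
      (fun l hl => (hL.2 l hl).1) h1 h2
    refine Val.none_of hlt fun e => h3 ?_
    rw [hπl] at e
    exact e.trans (codeAt_track E hA u l t)

end Vale.Agent.P193.W4.Coset.Realise
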