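import Vale.Agent.P193.W4.Emission
import Vale.Agent.P193.W4.Setup
import Vale.Agent.P193.W4.Coset.Realise.Rest

/-!
P193, module W4 B: limit states are realised. Near any finite set of cells every point of the full
layer looks like every point over some common point with dead digits arbitrarily high which reads
some point of the action.
-/

namespace Vale.Agent.P193.W4.Coset

open Vale.Agent.P193.Action Realise Filter

variable {K : Type} [Group K] {k : ℕ} {g : Fin k → K} {em : ℕ → Option (List (Full k))}

/-- A tower with the low placements of `T` and its kept folds, under letters that fit. -/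
theorem Realise.exists_top {E : EffAction K g} (hem : EmitsBad E em) {T : Tower k em}
    {c : K → (Fin 3 → ℤ) → JCell k} {A : ℕ → Bool} {U : Finset (K × (Fin 3 → ℤ))} {Q : ℕ}
    {wit : List (Fin 3 → Option (Mid k))} (hwit : WitOK T Q wit)
    (hpass : AboveW T Q → Passed T Q)
    (hstar : ∀ w, w ≠ [] → w.length < Q → (T.stAt 0 Q).word = some (padWord Q w) →
      ¬Genuine E w)
    (hfit : Fit E T c A U Q wit) :
    ∃ y ∈ E.Y, (∀ p ∈ U, ∀ l ≤ Q, codeAt E y p.1 l = codeAt E A p.1 l) ∧
      ∃ T' : Tower k em, (∀ m, m ≤ Q → T'.shift m = T.shift m) ∧ T'.Reset ∧ TopEq T T' Q ∧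
        Req E T c A T' y U := by
  classical
  obtain ⟨y, hy, i₀, d, b, hQi, htrack, hagree, hbad, hreq⟩ := hfit
  refine ⟨y, hy, hagree, ?_⟩
  let P : ℕ → Option (Mid k) → Plan k := fun L fin => ⟨Q, i₀, L, d, b, wit, fin⟩
  suffices h : ∃ (L : ℕ) (fin : Option (Mid k)) (T' : Tower k em), Built T (P L fin) T' ∧
      (AboveW T Q → (T'.stAt 0 Q).word = (T.stAt 0 Q).word) ∧
      (AboveH T Q → (T'.stAt 0 Q).hit = (T.stAt 0 Q).hit) by
    obtain ⟨L, fin, T', hB, hW, hH⟩ := h
    have hw : Wanted T (P L fin) := ⟨hwit.eqs, hwit.peqs, hwit.brs, htrack⟩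
    exact ⟨T', hB.low, hB.reset, ⟨fun i hi => topE hB hQi hw i hi,
      fun i hi => topP hB hQi hw i hi, fun s hs => topB hB hQi hw s hs, hW, hH⟩,
      hreq L fin T' hB⟩
  have build : ∀ L fin, i₀ + wit.length < L → ∃ T', Built T (P L fin) T' := fun L fin hL =>
    exists_built T (P L fin) hem.ne_nil (show Q < L by omega) (show i₀ + wit.length ≤ L by omega)
  have late : ∀ w, ¬Genuine E w → ∀ M, ∃ L, M ≤ L ∧ em L = some w := fun w hw M =>
    hem.complete w ((noExt_iff E w).2 hw) M
  by_cases hW : AboveW T Q
  swap
  · obtain ⟨T', hB⟩ := build (i₀ + wit.length + 1) none (by omega)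
    exact ⟨_, _, T', hB, fun h => absurd h hW, fun h => absurd (fun m hm => (h m hm).1) hW⟩
  rcases hpass hW with hnone | ⟨w, hw, hwQ, hwm⟩ | ⟨cw, hcw⟩
  · -- no word
    obtain ⟨T', hB⟩ := build (i₀ + wit.length + 1) none (by omega)
    have hQL : Q < i₀ + wit.length + 1 := by omega
    refine ⟨_, _, T', hB, fun _ => ?_, fun hH => ?_⟩
    · rw [hnone Q le_rfl]
      exact word_absent hB hQi hW hQL (Nat.le_succ _) rfl Q le_rfl
    · rw [show (T'.stAt 0 Q).hit = false from
        hit_absent hB hQi hW hQL (Nat.le_succ _) rfl Q le_rfl]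
      symm
      rw [Bool.eq_false_iff]
      intro hit
      obtain ⟨_, -, -, h2⟩ := hit_above hH hit Q le_rfl
      rw [hnone (Q + 1) (by omega)] at h2
      simp [topLetter] at h2
  · -- a starred word, emitted late
    obtain ⟨L, hL, heL⟩ := late w (hstar w hw hwQ (hwm Q le_rfl)) (i₀ + wit.length + 1)
    obtain ⟨T', hB⟩ := build L (some .reset) (by omega)
    have hQL : Q < L := by omega
    have hle : i₀ + wit.length ≤ L := by omega
    refine ⟨_, _, T', hB, fun _ => ?_, fun hH => ?_⟩
    · rw [hwm Q le_rfl]
      exact word_emitted hB hQi hW hQL hle rfl heL Q le_rfl hQL.le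
    · rw [show (T'.stAt 0 Q).hit = false from
        hit_missed hB hQi hW hQL hle rfl heL (show w.length < L by omega)
          (fun m (hm : Q ≤ m) _ _ => by omega) Q le_rfl]
      symm
      rw [Bool.eq_false_iff]
      intro hit
      obtain ⟨_, -, -, h2⟩ := hit_above hH hit Q le_rfl
      rw [hwm (Q + 1) (by omega), topLetter_padWord, List.getElem?_eq_none hwQ.le] at h2
      simp at h2
  · -- a word without stars
    by_cases hh : AboveH T Q ∧ (T.stAt 0 Q).hit = true
    · obtain ⟨hH, hit⟩ := hh
      obtain ⟨j, hj, hjb⟩ := hwit.marker hH hit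
      let f : ℕ → Full k := fun l =>
        if l ≤ Q then cw l else if l < i₀ then d l else fullL (dig wit (l - i₀) 0)
      let w : List (Full k) := List.ofFn fun l : Fin (i₀ + j) => f l
      have hw : ¬Genuine E w := fun hg => hbad cw hcw hH hit
        (genuine_mono E (f := fun l => if l ≤ Q then cw l else d l) (f' := f)
          (Nat.le_add_right i₀ j) (fun l hl => by simp [f, hl]) hg)
      obtain ⟨L, hL, heL⟩ := late w hw (i₀ + wit.length + 1)
      obtain ⟨T', hB⟩ := build L (some .reset) (by omega)
      have hQL : Q < L := by omega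
      have hle : i₀ + wit.length ≤ L := by omega
      have hjl : j < wit.length := mark_lt hj
      have hlen : w.length = i₀ + j := List.length_ofFn
      have hF0 : FullAbove T Q 0 := fun m hm => (hH m hm).2
      have hwQ : padWord Q w = starless cw Q := padWord_starless fun l hl => by
        rw [List.getElem?_eq_getElem (by omega)]
        simp [w, f, hl.le]
      refine ⟨_, _, T', hB, fun _ => ?_, fun _ => ?_⟩
      · rw [hcw Q le_rfl, ← hwQ]
        exact word_emitted hB hQi hW hQL hle rfl heL Q le_rfl hQL.le
      · rw [hit]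
        refine hit_found hB hQi hW hQL hle rfl heL (show Q < w.length by omega)
          (show w.length < L by omega) ?_ fun m (hm : Q ≤ m) hmw => ?_
        · rw [hlen]
          exact (zs_list hB hQi (v := 0) (i := 0) rfl (fun h => absurd h.1 (by decide)) j).trans hj
        · have hm' : m < i₀ + j := hlen ▸ hmw
          have hwm : w[m] = f m := List.getElem_ofFn _
          rw [hwm]
          rcases hm.eq_or_lt with rfl | hlt
          · obtain ⟨e, e0, -, e2⟩ := hit_above hH hit Q le_rfl
            rw [hcw (Q + 1) (by omega), topLetter_starless, Option.some.injEq] at e2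
            rw [show T'.zs 0 Q 0 = T.zs 0 Q 0 from zs_top hB (v := 0) (i := 0) rfl, e0, ← e2]
            simp [f]
          · by_cases hmi : m < i₀
            · rw [show T'.zs 0 m 0 = col T (P L (some .reset)) m 0 from
                congrFun (hB.high m hlt) 0, col_full hF0 hmi]
              simp [f, show ¬m ≤ Q by omega, hmi, P]
            · have e : T'.zs 0 (i₀ + (m - i₀)) 0 = dig wit (m - i₀) 0 :=
                zs_list hB hQi (v := 0) (i := 0) rfl (fun h => absurd h.1 (by decide)) _
              rw [Nat.add_sub_cancel' (not_lt.1 hmi)] at e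
              obtain ⟨e', he'⟩ := hjb (m - i₀) (by omega)
              rw [e, he']
              simp [f, show ¬m ≤ Q by omega, hmi, he', fullL, Tower.fullOf]
    · obtain ⟨v, hv0, -, hv⟩ := exists_bad_extension E
        ((List.ofFn fun l : Fin (Q + 1) => cw l) ++
          List.replicate (i₀ + wit.length) fun _ => false)
      set w := ((List.ofFn fun l : Fin (Q + 1) => cw l) ++
          List.replicate (i₀ + wit.length) fun _ => false) ++ v with hwdef
      have hlen : i₀ + wit.length < w.length := by simp [hwdef]; omega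
      obtain ⟨L, hL, heL⟩ := late w hv (w.length + 1)
      obtain ⟨T', hB⟩ := build L (some .reset) (by omega)
      have hQL : Q < L := by omega
      have hle : i₀ + wit.length ≤ L := by omega
      have hwQ : padWord Q w = starless cw Q := padWord_starless fun l hl => by
        rw [hwdef, List.append_assoc,
          List.getElem?_append_left (by simp; omega), List.getElem?_ofFn,
          dif_pos (show l < Q + 1 by omega)]
      refine ⟨_, _, T', hB, fun _ => ?_, fun hH => ?_⟩
      · rw [hcw Q le_rfl, ← hwQ]
        exact word_emitted hB hQi hW hQL hle rfl heL Q le_rfl hQL.le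
      · rw [show (T.stAt 0 Q).hit = false from Bool.eq_false_iff.2 fun h => hh ⟨hH, h⟩]
        refine hit_missed hB hQi hW hQL hle rfl heL (show w.length < L by omega)
          (fun m _ _ hz hm => ?_) Q le_rfl
        have e : T'.zs 0 (i₀ + (m - i₀)) 0 = dig wit (m - i₀) 0 :=
          zs_list hB hQi (v := 0) (i := 0) rfl (fun h => absurd h.1 (by decide)) _
        rw [Nat.add_sub_cancel' (show i₀ ≤ m by omega), hz] at e
        have := mark_lt e.symm
        omega

variable {C : Common k em}

/-- Limit states are realised. -/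
theorem realisable (E : EffAction K g) (hinj : Function.Injective g) (hne : ∀ s, g s ≠ 1)
    (hgen : Subgroup.closure (Set.range g) = ⊤) (hk : 0 < k) (hem : EmitsBad E em) :
    Realisable C E := by
  classical
  intro x U
  have hcomp : ∀ w, NoExt E w → ∃ L, w.length ≤ L ∧ em L = some w := fun w hw => by
    obtain ⟨L, -, hL⟩ := hem.complete w hw 0
    exact ⟨L, hem.length_le L w hL, hL⟩
  have hgi := gs_injective hinj hne
  have hx := (winOK_iff x.1).1 x.2
  obtain ⟨A, hA, hreads⟩ := exists_point E hgen hcomp x
  set T := C.tower (commonPt x) with hT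
  set c : K → (Fin 3 → ℤ) → JCell k := fun u => counter fun v => (x.1 (u, v)).2 with hc
  have S : Src E T c A := by
    refine ⟨fun u => (hx.one hgen (commonPt x) (fun v => rfl) u).toOne, hreads, hA,
      fun u t i v => ?_⟩
    cases t with
    | none => simp [gs]
    | some s => exact hx.edge u (Multiplicative.ofAdd (v, 0)) s i
  let cells := U.image fun p : K × Lat => (p.1, (Multiplicative.toAdd p.2).1)
  obtain ⟨U₁, N₀, -, happ⟩ := C.approx (commonPt x) (U.image Prod.snd)
  choose rep hrep _hrepd using fun q : Lat × (Fin 3 → Bool) => T.exists_cell (N₀ + 1)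
    (fun i => T.tile (Multiplicative.toAdd q.1).1 (N₀ + 1) i - if q.2 i then 1 else 0)
    (fun _ _ => idle)
  obtain ⟨Q, hG, hgenOK, hpass, hset, hnQ⟩ := ((eventually_good E T A cells).and
    ((eventually_genOK E T).and ((eventually_passed T).and
      (((eventually_all_finset (U₁ ×ˢ (Finset.univ : Finset (Fin 3 → Bool)))).2
        fun q _ => eventually_settled T (rep q) (N₀ + 1)).and
          (eventually_ge_atTop (N₀ + 1)))))).exists
  obtain ⟨wit, hwit⟩ := exists_wit T Q
  have hfit : Fit E T c A cells Q wit := by
    by_cases h1 : Live T c cells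
    · exact fit_live S hgi hG hwit hgenOK h1
    · by_cases h2 : LiveQ T c cells
      · exact fit_proj S hgi hk hG hwit h1 h2
      · exact fit_rest S hG h1 h2
  obtain ⟨y, hy, hagree, T', hlow, hreset, htop, hreq⟩ := exists_top hem hwit hpass
    (fun w hw hwQ hW => not_genuine_starred E hgen hcomp x hw hwQ hW) hfit
  obtain ⟨c', hc', hdig⟩ := happ N₀ le_rfl T' hreset
    (fun γ _ m hm => funext fun i => congrFun ((Tower.low_congr (N := Q + 1)
      (fun j hj => hlow j (by omega)) (Multiplicative.toAdd γ).1 m (by omega)).2 (by omega)) i)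
    (fun γ hγ e => by
      have h1 := stAt_eq hlow htop (hset (γ, e) (Finset.mem_product.2 ⟨hγ, Finset.mem_univ _⟩))
      rw [Tower.stAt, Tower.stAt, (zs_low hlow _ (N₀ + 1) hnQ).2, hrep] at h1
      simp only [(zs_low hlow _ (N₀ + 1) hnQ).2]
      exact h1)
  have hzs : (C.tower c').zs = T'.zs := funext fun v => funext fun m => funext fun i => by
    rw [Tower.zs, Tower.zs, hdig]
  have hreset' : (C.tower c').Reset := fun v i m => by
    obtain ⟨n, h1, h2⟩ := hreset v i m
    exact ⟨n, h1, by rw [hdig]; exact h2⟩
  refine ⟨c', hreset', y, hy, fun z hz hzr p hp => ?_⟩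
  obtain ⟨u, v⟩ := p
  have hv : v ∈ U.image Prod.snd := Finset.mem_image.2 ⟨_, hp, rfl⟩
  have hcell : (u, (Multiplicative.toAdd v).1) ∈ cells := Finset.mem_image.2 ⟨_, hp, rfl⟩
  have hzz := (winOK_iff z.1).1 z.2
  have hcom : c'.1 v = (commonPt x).1 v := hc' v hv
  refine Prod.ext ?_ ?_
  · rw [commonPt_eq hgen x, commonPt_eq hgen z, hz, hcom]
  have hone := hzz.one hgen c' (fun v => by rw [← hz]; rfl) u
  have e1 := (hx.one hgen (commonPt x) (fun v => rfl) u).eq_counter v
  have e2 := hone.eq_counter v
  show (x.1 (u, v)).2 = (z.1 (u, v)).2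
  refine e1.trans (Eq.trans ?_ e2.symm)
  symm
  have hreq' : Req E T c A (C.tower c') y cells := by
    refine ⟨fun p hp i hl he hk σ hL => hreq.J p hp i hl he hk σ ?_,
      fun p hp s hl he hk σ hL => hreq.B p hp s hl he hk σ ?_,
      fun p hp i t hl he hk π hL => hreq.Q p hp i t hl he hk π ?_⟩
    · simp only [Tower.Line, hzs] at hL
      exact hL
    · simp only [Tower.Bridge, hzs] at hL
      exact hL
    · simp only [Tower.PLine, hzs] at hL
      exact hL
  refine fields_eq S hG hreq' (fun w m hm => ?_) hreset' hcell (hagree _ hcell) ?_ hone.toOne (hzr u)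
  · rw [hzs]
    exact (zs_low hlow w m hm).1
  · have f1 := C.flags_tower c' (Multiplicative.toAdd v)
    have f2 := C.flags_tower (commonPt x) (Multiplicative.toAdd v)
    rw [ofAdd_toAdd] at f1 f2
    rw [hcom, f2] at f1
    exact f1.symm

/-- The same, for a code with its list of generators. -/
theorem realisable_of_gens (G : Gens K k) (E : EffAction K G.g) {C : Common k em}
    (hem : EmitsBad E em) : Realisable C E :=
  realisable E G.inj G.ne_one G.closure G.pos hem

end Vale.Agent.P193.W4.Coset
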