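import Vale.Agent.P193.W4.Coset.Realise.Live

/-!
P193, module W4 B, realisation, the case of an infinite projection line with a value and no line or
bridge with one: the new point has the bits of a block chosen on one track.
-/

namespace Vale.Agent.P193.W4.Coset.Realise

open Vale.Agent.P193.Action

variable {k : ℕ} {em : ℕ → Option (List (Full k))} {K : Type} [Group K] {g : Fin k → K}
  {E : EffAction K g} {T : Tower k em} {c : K → (Fin 3 → ℤ) → JCell k} {A : ℕ → Bool}
  {U : Finset (K × (Fin 3 → ℤ))} {Q : ℕ} {wit : List (Fin 3 → Option (Mid k))}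

/-- Some infinite projection line among the cells has a value. -/
def LiveQ (T : Tower k em) (c : K → (Fin 3 → ℤ) → JCell k) (U : Finset (K × (Fin 3 → ℤ))) :
    Prop :=
  ∃ p ∈ U, ∃ i t, LongQ T p.2 i ∧ (T.stAt p.2 0).flags.peq i = true ∧
    ((c p.1 p.2).Q i t).isSome

lemma none_of_not_live (h : ¬Live T c U) {p : K × (Fin 3 → ℤ)} (hp : p ∈ U) :
    (∀ i, LongJ T p.2 i → (T.stAt p.2 0).flags.eq i = true → (c p.1 p.2).J i = none) ∧
      ∀ s, LongB T p.2 s → (T.stAt p.2 0).flags.br s = true → (c p.1 p.2).B = none := by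
  constructor
  · intro i hl he
    by_contra hn
    exact h ⟨p, hp, .inl ⟨i, hl, he, Option.ne_none_iff_isSome.1 hn⟩⟩
  · intro s hl he
    by_contra hn
    exact h ⟨p, hp, .inr ⟨s, hl, he, Option.ne_none_iff_isSome.1 hn⟩⟩

lemma none_of_not_liveQ (h : ¬LiveQ T c U) {p : K × (Fin 3 → ℤ)} (hp : p ∈ U) {i : Fin 3}
    {t : Option (Fin k)} (hl : LongQ T p.2 i) (he : (T.stAt p.2 0).flags.peq i = true) :
    (c p.1 p.2).Q i t = none := by
  by_contra hn
  exact h ⟨p, hp, i, t, hl, he, Option.ne_none_iff_isSome.1 hn⟩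

section Segment

variable {P : Plan k} {T' : Tower k em} (hB : Built T P T')

include hB

/-- A line of the new tower follows the letters of the segment. -/
lemma seg_full {v : Fin 3 → ℤ} {a : Fin 3} {p : ℕ → Full k} (hv : Joined T v P.Q a)
    (hF : FullAbove T P.Q a) (hk : Key T .full v a p) {σ : List (Full k)}
    (hhead : T'.zs v σ.length a = some .hash)
    (hlet : ∀ l (h : l < σ.length), T'.zs v l a = some (.full σ[l])) {l : ℕ} (h1 : P.Q < l)
    (h2 : l < P.i₀) : ∃ h : l < σ.length, σ[l] = P.d l := by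
  have hlen : P.i₀ ≤ σ.length := not_lt.1 fun hlt => by
    obtain ⟨d, e⟩ := full_below hB hv hF (fun m _ => ⟨_, hk m⟩) hlt
    rw [hhead] at e
    cases e
  refine ⟨by omega, ?_⟩
  have e := hlet l (by omega)
  rw [zs_high hB hv h1, col_full hF h2] at e
  simpa using e.symm

/-- A projection line of the new tower follows the bits of the segment. -/
lemma seg_pad {v : Fin 3 → ℤ} {a : Fin 3} {p : ℕ → Bool} (hv : Joined T v P.Q a)
    (hF : PadAbove T P.Q a) (hk : Key T .pad v a p) {π : List Bool}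
    (hhead : T'.zs v π.length a = some .phash)
    (hlet : ∀ l (h : l < π.length), T'.zs v l a = some (.pad π[l])) {l : ℕ} (h1 : P.Q < l)
    (h2 : l < P.i₀) : ∃ h : l < π.length, π[l] = P.b l := by
  have hlen : P.i₀ ≤ π.length := not_lt.1 fun hlt => by
    obtain ⟨d, e⟩ := pad_below hB hv hF (fun m _ => ⟨_, hk m⟩) hlt
    rw [hhead] at e
    cases e
  refine ⟨by omega, ?_⟩
  have e := hlet l (by omega)
  rw [zs_high hB hv h1, col_pad hF h2] at e
  simpa using e.symm

end Segment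

theorem fit_proj (S : Src E T c A) (hgi : Function.Injective (gs g)) (hk : 0 < k)
    (G : Good E T A U Q) (hwit : WitOK T Q wit) (hnot : ¬Live T c U) (h : LiveQ T c U) :
    Fit E T c A U Q wit := by
  classical
  obtain ⟨⟨u₀, v₀⟩, hp₀, i', t₀, hl₀, he₀, hs₀⟩ := h
  simp only at hl₀ he₀ hs₀
  have hA := S.mem
  set w := u₀ * gs g t₀ with hw
  obtain ⟨g0, g1, hb₀⟩ := G.longQ hp₀ hl₀
  simp only at g0 g1
  have hkey₀ := S.key_of_Q hl₀ hs₀
  have hKP : ∀ j, AboveP T Q j → PadTop E A T Q w j ∧ PadTop E A T Q w (j + 1) := by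
    intro j hj
    obtain ⟨a, hai, haj⟩ := kinds_meet i' j
    refine hj.spread ?_ haj
    rcases hai with rfl | rfl
    · exact padTop_of_key hA hkey₀.1 g0
    · exact padTop_of_key hA hkey₀.2 g1
  obtain ⟨r, hr⟩ := exists_star T Q (fun m => fun _ => own E A w m) (own E A w)
  have htr : ∀ {u t}, u * gs g t = w → ∀ y' ∈ E.Y, ∀ m, codeAt E y' u m t = own E y' w m :=
    fun hu y' hy' m => by rw [codeAt_track E hy', hu]
  have hcoord : ∀ v j u t, Joined T v Q j → Joined T v Q (j + 1) → AboveP T Q j → LongQ T v j →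
      u * gs g t = w → Key T .pad v j (fun m => codeAt E A u m t) →
      v j = r j ∧ v (j + 1) = r (j + 1) := fun v j u t h0 h1 ha hl hu k0 =>
    ⟨hr.coord_pad ha.pad.1 h0 k0 fun m _ => htr hu A hA m,
      hr.coord_pad ha.pad.2 h1 (hl.key_next k0) fun m _ => htr hu A hA m⟩
  have hMP : ∀ i, AboveP T Q i ∧ (T.stAt 0 Q).flags.peq i = true → ∃ j,
      dig wit j i = some .phash ∧ (∀ j' < j, KeepP (dig wit j') i) ∧
      (T.stAt 0 Q).flags.prel i = Tower.relTop Mid.phash Tower.padOf (dig wit j (i + 1))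
        (dig wit (j + 1) (i + 1)) := by
    rintro i ⟨ha, he⟩
    obtain ⟨e1, e2⟩ := hwit.peqs i ha
    rw [← e1] at he
    obtain ⟨j, h1, h2, h3⟩ := folded_pmark i wit he
    exact ⟨j, h1, h2, e2 ▸ h3⟩
  choose! jP hjP using hMP
  let Kind : Fin 3 → Prop := fun i => AboveP T Q i ∧ (T.stAt 0 Q).flags.peq i = true
  obtain ⟨N, hN⟩ := dep_finset E (U.image Prod.fst) (Q + 1)
  obtain ⟨J, hJ⟩ := tracks_differ E hgi (Q + 1)
  obtain ⟨i₀, hi₀, hblock⟩ :=
    exists_block E hgi hA (max (max N (Q + 1)) J) (wit.length + 2) w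
  let σF : Fin 3 → ℕ → Bool := fun a l =>
    if i₀ ≤ l then padL (dig wit (l - i₀) a) else false
  have hlow : ∀ a b, ∀ l < i₀, σF a l = σF b l := fun a b l hl => by
    simp [σF, show ¬i₀ ≤ l by omega]
  have hσ : ∀ a j, σF a (i₀ + j) = padL (dig wit j a) := fun a j => by simp [σF]
  have hP2 : ∀ i, Kind i → ∀ j < jP i,
      dig wit j i = some (.pad (σF i (i₀ + j))) ∧
      dig wit j (i + 1) = some (.pad (σF i (i₀ + j))) := fun i hi j hj => by
    rw [hσ]
    exact ((hjP i hi).2.1 j hj).letters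
  have hord : ∀ a b : {a // Kind a}, a ≠ b →
      Ord (fun a : {a // Kind a} => i₀ + jP a.1) (fun a => σF a.1)
        (fun a => (c w r).Q a.1 none) a b ∨
      Ord (fun a : {a // Kind a} => i₀ + jP a.1) (fun a => σF a.1)
        (fun a => (c w r).Q a.1 none) b a := by
    have pairP : ∀ (i : Fin 3) (ha : Kind i) (hb : Kind (i + 1)),
        Ord (fun a : {a // Kind a} => i₀ + jP a.1) (fun a => σF a.1)
          (fun a => (c w r).Q a.1 none) ⟨i, ha⟩ ⟨i + 1, hb⟩ := by
      intro i ha hb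
      refine cross_ord (h := Mid.phash) (mk := Mid.pad) (letter := Tower.padOf)
        (fun _ _ e => Mid.pad.inj e) (fun _ => by simp) (fun _ => rfl)
        (fun j => dig wit j (i + 1)) rfl rfl (hlow _ _) (fun j hj => (hP2 i ha j hj).2)
        (fun j hj => (hP2 (i + 1) hb j hj).1) (hjP _ hb).1 ?_
      obtain ⟨f1, f2⟩ := hr.peq_top ha.1.pad.1 ha.1.pad.2
      have hn := ((S.one w).cell r).nestedQ i none (f1.trans ha.2)
        ((hr.peq_top hb.1.pad.1 hb.1.pad.2).1.trans hb.2)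
      rw [f2 ha.2, (hjP i ha).2.2] at hn
      exact hn
    rintro ⟨i, ha⟩ ⟨j, hb⟩ hne
    have hij : j = i + 1 ∨ i = j + 1 := by
      have : ∀ x y : Fin 3, x ≠ y → y = x + 1 ∨ x = y + 1 := by decide
      exact this i j fun e => hne (Subtype.ext e)
    rcases hij with rfl | rfl
    · exact .inl (pairP i ha hb)
    · exact .inr (pairP j hb ha)
  have hsome : ∃ a : {a // Kind a}, ((c w r).Q a.1 none).isSome := by
    refine ⟨⟨i', hb₀, (longQ_top hl₀ g0 g1).symm.trans he₀⟩, ?_⟩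
    obtain ⟨e0, e1⟩ := hcoord v₀ i' u₀ t₀ g0 g1 hb₀ hl₀ hw.symm hkey₀.1
    show ((c w r).Q i' none).isSome
    rw [← ((S.one w).slide e0 e1).2, hw, ← S.edge]
    exact hs₀
  obtain ⟨cl, hcl⟩ := choose_letters i₀ (fun a : {a // Kind a} => i₀ + jP a.1)
    (fun a => σF a.1) (fun a => (c w r).Q a.1 none) (fun a => Nat.le_add_right _ _) hord hsome
  obtain ⟨y, hy, hyN, hyB⟩ := hblock fun t _ => cl (i₀ + t)
  have hQi : Q < i₀ := by omega
  have hagree : ∀ u ∈ U.image Prod.fst, ∀ l ≤ Q, codeAt E y u l = codeAt E A u l :=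
    fun u hu l hl => hN y A (fun j hj => hyN j (by omega)) u hu l (by omega)
  have hown : ∀ l ≤ Q, own E y w l = own E A w l := fun l hl => by
    rw [← htr hw.symm y hy, ← htr hw.symm A hA,
      hagree u₀ (Finset.mem_image.2 ⟨_, hp₀, rfl⟩) l hl]
  have hblk : ∀ l, i₀ ≤ l → l ≤ i₀ + wit.length → own E y w l = cl l := by
    intro l h1 h2
    have := congrFun (hyB ⟨l - i₀, by omega⟩) none
    simp only [Nat.add_sub_cancel' h1] at this
    rwa [code_none E (E.mem _ y hy)] at this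
  have hdiff : ∀ u, ∃ l, Q < l ∧ l < i₀ ∧ codeAt E y u l ≠ fun _ => own E y w l := by
    intro u
    obtain ⟨l, h1, h2, h3⟩ := hJ (E.act u⁻¹ y) (E.mem _ y hy) none (some ⟨0, hk⟩) (by simp)
    refine ⟨l, by omega, by omega, fun e => h3 ?_⟩
    have e1 := congrFun e none
    have e2 := congrFun e (some ⟨0, hk⟩)
    exact e1.trans e2.symm
  refine ⟨y, hy, i₀, fun m _ => own E y w m, own E y w, hQi, fun s _ _ m _ _ => rfl,
    fun p hp => hagree p.1 (Finset.mem_image.2 ⟨p, hp, rfl⟩), ?_, fun L fin T' hB => ⟨?_, ?_, ?_⟩⟩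
  · intro cw _ hH _
    exfalso
    have hW : AboveW T Q := fun m hm => (hH m hm).1
    have h2 : ∀ {j}, PadAbove T Q j → j ≠ 2 := fun hf e => hf.not_word ⟨e, hW⟩
    obtain rfl := kind_low (i := i') hW (h2 hb₀.pad.1) (h2 hb₀.pad.2)
    exact (show FullAbove T Q 0 from fun m hm => (hH m hm).2).not_pad hb₀.pad.1
  · rintro ⟨u, v⟩ hp i hl he hkey σ hL
    simp only at hl he hkey hL ⊢
    obtain ⟨h0, -, ha⟩ := G.longJ hp hl
    rw [(none_of_not_live hnot hp).1 i hl he]
    obtain ⟨l, h1, h2, h3⟩ := hdiff u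
    obtain ⟨hlt, hσl⟩ := seg_full (a := i) hB h0 ha.full.1 hkey hL.1
      (fun l hl => (hL.2 l hl).1) h1 h2
    exact Val.none_of hlt (by rw [hσl]; exact fun e => h3 e.symm)
  · rintro ⟨u, v⟩ hp s hl he hkey σ hL
    simp only at hl he hkey hL ⊢
    obtain ⟨h0, -, ha⟩ := G.longB hp hl
    rw [(none_of_not_live hnot hp).2 s hl he]
    obtain ⟨l, h1, h2, h3⟩ := hdiff u
    obtain ⟨hlt, hσl⟩ := seg_full (a := 0) hB h0 ha.full.1 hkey hL.1.1
      (fun l hl => (hL.2 l hl).1) h1 h2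
    exact Val.none_of hlt (by rw [hσl]; exact fun e => h3 e.symm)
  · rintro ⟨u, v⟩ hp i t hl he hkey π hL
    simp only at hl he hkey hL ⊢
    obtain ⟨h0, h1, ha⟩ := G.longQ hp hl
    simp only at h0 h1
    have hu : u * gs g t = w := (padTop_of_key hA hkey h0).coset hA (hKP i ha).1
    have hK : Kind i := ⟨ha, (longQ_top hl h0 h1).symm.trans he⟩
    obtain ⟨e0, e1⟩ := hcoord v i u t h0 h1 ha hl hu hkey
    rw [S.edge, hu, ((S.one w).slide e0 e1).2]
    obtain ⟨hlen, hp1, hp2, hp3⟩ := slot_pad (a := i) hB hQi h0 ha.pad.1 hkey hL.1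
      (fun l hl => (hL.2 l hl).1) (hjP i hK).1
      (fun j hj => ((hjP i hK).2.1 j hj).imp fun _ e => e.1)
    have hjl : jP i < wit.length := mark_lt (hjP i hK).1
    simp only at hlen hp1 hp2 hp3
    have hpe : (fun m => codeAt E y u m t) = own E y w := funext fun m => htr hu y hy m
    rw [hpe]
    refine val_chosen (i₀ := i₀) (j := jP i) (c := cl) (s := σF i) hlen
      (fun l hl hl0 => ?_) (fun l hl hl0 => ?_) (fun l h1 h2 => hblk l h1 (by omega))
      (hcl ⟨i, hK⟩)
    · rcases le_or_gt l Q with hq | hq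
      · rw [hp1 l hl hq, htr hu A hA, hown l hq]
      · exact hp2 l hl hq hl0
    · rw [hp3 l hl hl0]
      simp [σF, hl0]

end Vale.Agent.P193.W4.Coset.Realise
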