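import Vale.Agent.P193.W4.Coset.Realise.Frame

/-!
P193, module W4 B, realisation: the cell with prescribed strings below a high level, and the
markers in a list of digits whose fold is prescribed.
-/

namespace Vale.Agent.P193.W4.Coset.Realise

open Vale.Agent.P193.Action Filter

variable {k : ℕ} {em : ℕ → Option (List (Full k))}

/-! ### The cell with prescribed strings -/

/-- The cell lies in the tiles of the origin from `Q` on; below, its axes show the strings. -/
structure Star (T : Tower k em) (Q : ℕ) (sF : ℕ → Full k) (sG : ℕ → Bool) (r : Fin 3 → ℤ) :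
    Prop where
  tile : T.tile r Q = T.tile 0 Q
  full : ∀ i, FullAbove T Q i → ∀ m < Q, T.zs r m i = some (.full (sF m))
  pad : ∀ i, PadAbove T Q i → ∀ m < Q, T.zs r m i = some (.pad (sG m))
  pass : AboveW T Q → ∀ m < Q, T.zs r m 2 = some .pass

theorem exists_star (T : Tower k em) (Q : ℕ) (sF : ℕ → Full k) (sG : ℕ → Bool) :
    ∃ r, Star T Q sF sG r := by
  classical
  obtain ⟨r, hr, hd⟩ := T.exists_cell Q (T.tile 0 Q) fun m i =>
    pos (if FullAbove T Q i then .full (sF m) else if PadAbove T Q i then .pad (sG m) else .pass)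
  have hz : ∀ m < Q, ∀ i, T.zs r m i =
      some (if FullAbove T Q i then .full (sF m) else if PadAbove T Q i then .pad (sG m)
        else .pass) := fun m hm i => by
    rw [Tower.zs, hd m hm i]
    exact sym_eq_some.2 rfl
  refine ⟨r, hr, fun i hi m hm => ?_, fun i hi m hm => ?_, fun hW m hm => ?_⟩
  · rw [hz m hm, if_pos hi]
  · rw [hz m hm, if_neg fun hf => hf.not_pad hi, if_pos hi]
  · rw [hz m hm, if_neg fun hf => hf.not_word ⟨rfl, hW⟩,
      if_neg fun hg => hg.not_word ⟨rfl, hW⟩]

section Star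

variable {T : Tower k em} {Q : ℕ} {sF : ℕ → Full k} {sG : ℕ → Bool} {r : Fin 3 → ℤ}
  (hr : Star T Q sF sG r)

include hr

lemma Star.joined (i : Fin 3) : Joined T r Q i := congrFun hr.tile i

lemma Star.coord_full {v : Fin 3 → ℤ} {i : Fin 3} {p : ℕ → Full k} (hf : FullAbove T Q i)
    (hv : Joined T v Q i) (hk : Key T .full v i p) (hp : ∀ m < Q, p m = sF m) : v i = r i :=
  coord_eq T (hv.trans (hr.joined i).symm) fun m hm =>
    ⟨_, hk m, by rw [hr.full i hf m hm, hp m hm]⟩

lemma Star.coord_pad {v : Fin 3 → ℤ} {i : Fin 3} {p : ℕ → Bool} (hf : PadAbove T Q i)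
    (hv : Joined T v Q i) (hk : Key T .pad v i p) (hp : ∀ m < Q, p m = sG m) : v i = r i :=
  coord_eq T (hv.trans (hr.joined i).symm) fun m hm =>
    ⟨_, hk m, by rw [hr.pad i hf m hm, hp m hm]⟩

lemma Star.eq_top {i : Fin 3} (h0 : FullAbove T Q i) (h1 : FullAbove T Q (i + 1)) :
    (T.stAt r 0).flags.eq i = (T.stAt 0 Q).flags.eq i ∧
      ((T.stAt 0 Q).flags.eq i = true →
        (T.stAt r 0).flags.rel i = (T.stAt 0 Q).flags.rel i) := by
  have h := keep_eq T r (Nat.zero_le Q) (i := i) fun m _ hm =>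
    ⟨sF m, hr.full i h0 m hm, hr.full (i + 1) h1 m hm⟩
  have e : T.stAt r Q = T.stAt 0 Q := by rw [Tower.stAt, Tower.stAt, hr.tile]
  rwa [e] at h

lemma Star.peq_top {i : Fin 3} (h0 : PadAbove T Q i) (h1 : PadAbove T Q (i + 1)) :
    (T.stAt r 0).flags.peq i = (T.stAt 0 Q).flags.peq i ∧
      ((T.stAt 0 Q).flags.peq i = true →
        (T.stAt r 0).flags.prel i = (T.stAt 0 Q).flags.prel i) := by
  have h := keep_peq T r (Nat.zero_le Q) (i := i) fun m _ hm =>
    ⟨sG m, hr.pad i h0 m hm, hr.pad (i + 1) h1 m hm⟩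
  have e : T.stAt r Q = T.stAt 0 Q := by rw [Tower.stAt, Tower.stAt, hr.tile]
  rwa [e] at h

lemma Star.br_top {s : Option (Fin k)} (h0 : FullAbove T Q 0) (h1 : PadAbove T Q 1)
    (hs : ∀ m < Q, sF m s = sG m) :
    (T.stAt r 0).flags.br s = (T.stAt 0 Q).flags.br s := by
  have h := keep_br T r (Nat.zero_le Q) (s := s) fun m _ hm =>
    ⟨sF m, hr.full 0 h0 m hm, by rw [hr.pad 1 h1 m hm, hs m hm]⟩
  have e : T.stAt r Q = T.stAt 0 Q := by rw [Tower.stAt, Tower.stAt, hr.tile]
  rwa [e] at h

end Star

lemma AboveE.full {T : Tower k em} {Q : ℕ} {i : Fin 3} (h : AboveE T Q i) :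
    FullAbove T Q i ∧ FullAbove T Q (i + 1) :=
  ⟨fun m hm => (h m hm).imp fun _ e => e.1, fun m hm => (h m hm).imp fun _ e => e.2⟩

lemma AboveP.pad {T : Tower k em} {Q : ℕ} {i : Fin 3} (h : AboveP T Q i) :
    PadAbove T Q i ∧ PadAbove T Q (i + 1) :=
  ⟨fun m hm => (h m hm).imp fun _ e => e.1, fun m hm => (h m hm).imp fun _ e => e.2⟩

lemma AboveB.full {T : Tower k em} {Q : ℕ} {s : Option (Fin k)} (h : AboveB T Q s) :
    FullAbove T Q 0 ∧ PadAbove T Q 1 :=
  ⟨fun m hm => (h m hm).imp fun _ e => e.1, fun m hm => by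
    obtain ⟨d, -, e⟩ := h m hm
    exact ⟨_, e⟩⟩

/-! ### Markers in a list of digits -/

/-- The symbols of a list of digits; nothing beyond it. -/
def dig (l : List (Fin 3 → Option (Mid k))) (j : ℕ) : Fin 3 → Option (Mid k) :=
  l.getD j fun _ => none

/-- The fold of a list of digits. -/
def folded (l : List (Fin 3 → Option (Mid k))) : Flags k :=
  l.foldr (fun z f => f.step z) Flags.off

lemma folded_wasH (l : List (Fin 3 → Option (Mid k))) (i : Fin 3) :
    (folded l).wasH i = decide (dig l 0 i = some .hash) ∧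
      (folded l).wasP i = decide (dig l 0 i = some .phash) := by
  cases l <;> simp [folded, dig, Flags.off, Flags.step]

lemma mark_lt {l : List (Fin 3 → Option (Mid k))} {j : ℕ} {i : Fin 3} {s : Mid k}
    (h : dig l j i = some s) : j < l.length := by
  by_contra hc
  rw [dig, List.getD_eq_getElem?_getD, List.getElem?_eq_none (Nat.not_lt.1 hc)] at h
  simp at h

/-- A line in the fold of a list has its marker in the list. -/
lemma folded_mark (i : Fin 3) : ∀ l : List (Fin 3 → Option (Mid k)), (folded l).eq i = true →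
    ∃ j, dig l j i = some .hash ∧ (∀ j' < j, KeepE (dig l j') i) ∧
      (folded l).rel i = Tower.relTop Mid.hash Tower.fullOf (dig l j (i + 1)) (dig l (j + 1) (i + 1))
  | [], h => by simp [folded, Flags.off] at h
  | z :: l, h => by
    have hh : (((folded l).step z).eq i) = true := h
    by_cases hz : z i = some .hash
    · refine ⟨0, hz, fun j' hj => absurd hj (Nat.not_lt_zero _), ?_⟩
      show ((folded l).step z).rel i = _
      simp only [Flags.step, hz, (folded_wasH l (i + 1)).1]
      show _ = Tower.relTop Mid.hash Tower.fullOf (z (i + 1)) (dig l 0 (i + 1))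
      rcases z (i + 1) with _ | m
      · rfl
      · cases m <;> simp [Tower.relTop, Tower.fullOf]
    have hk : KeepE z i := by
      simp only [Flags.step] at hh
      rcases hz' : z i with _ | m
      · simp [hz'] at hh
      cases m with
      | full d => exact ⟨d, hz', by simp [hz'] at hh; exact hh.2⟩
      | hash => exact absurd hz' hz
      | _ => simp [hz'] at hh
    rw [(keepE_step hk).1] at hh
    obtain ⟨j, h1, h2, h3⟩ := folded_mark i l hh
    refine ⟨j + 1, h1, fun j' hj => ?_, ?_⟩
    · rcases j' with _ | j'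
      · exact hk
      · exact h2 j' (by omega)
    · show ((folded l).step z).rel i = _
      rw [(keepE_step hk).2, if_pos hh, h3]
      rfl

/-- A projection line in the fold of a list has its marker in the list. -/
lemma folded_pmark (i : Fin 3) : ∀ l : List (Fin 3 → Option (Mid k)), (folded l).peq i = true →
    ∃ j, dig l j i = some .phash ∧ (∀ j' < j, KeepP (dig l j') i) ∧
      (folded l).prel i = Tower.relTop Mid.phash Tower.padOf (dig l j (i + 1)) (dig l (j + 1) (i + 1))
  | [], h => by simp [folded, Flags.off] at h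
  | z :: l, h => by
    have hh : (((folded l).step z).peq i) = true := h
    by_cases hz : z i = some .phash
    · refine ⟨0, hz, fun j' hj => absurd hj (Nat.not_lt_zero _), ?_⟩
      show ((folded l).step z).prel i = _
      simp only [Flags.step, hz, (folded_wasH l (i + 1)).2]
      show _ = Tower.relTop Mid.phash Tower.padOf (z (i + 1)) (dig l 0 (i + 1))
      rcases z (i + 1) with _ | m
      · rfl
      · cases m <;> simp [Tower.relTop, Tower.padOf]
    have hk : KeepP z i := by
      simp only [Flags.step] at hh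
      rcases hz' : z i with _ | m
      · simp [hz'] at hh
      cases m with
      | pad d => exact ⟨d, hz', by simp [hz'] at hh; exact hh.2⟩
      | phash => exact absurd hz' hz
      | _ => simp [hz'] at hh
    rw [(keepP_step hk).1] at hh
    obtain ⟨j, h1, h2, h3⟩ := folded_pmark i l hh
    refine ⟨j + 1, h1, fun j' hj => ?_, ?_⟩
    · rcases j' with _ | j'
      · exact hk
      · exact h2 j' (by omega)
    · show ((folded l).step z).prel i = _
      rw [(keepP_step hk).2, if_pos hh, h3]
      rfl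

/-- A bridge in the fold of a list has its markers in the list. -/
lemma folded_bmark (s : Option (Fin k)) :
    ∀ l : List (Fin 3 → Option (Mid k)), (folded l).br s = true →
    ∃ j, (dig l j 0 = some .hash ∧ dig l j 1 = some .phash) ∧ ∀ j' < j, KeepB (dig l j') s
  | [], h => by simp [folded, Flags.off] at h
  | z :: l, h => by
    have hh : (((folded l).step z).br s) = true := h
    by_cases hz : z 0 = some .hash
    · refine ⟨0, ⟨hz, ?_⟩, fun j' hj => absurd hj (Nat.not_lt_zero _)⟩
      simpa [Flags.step, hz, dig] using hh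
    have hk : KeepB z s := by
      simp only [Flags.step] at hh
      rcases hz' : z 0 with _ | m
      · simp [hz'] at hh
      cases m with
      | full d => exact ⟨d, hz', by simp [hz'] at hh; exact hh.2⟩
      | hash => exact absurd hz' hz
      | _ => simp [hz'] at hh
    rw [keepB_step hk] at hh
    obtain ⟨j, h1, h2⟩ := folded_bmark s l hh
    refine ⟨j + 1, h1, fun j' hj => ?_⟩
    rcases j' with _ | j'
    · exact hk
    · exact h2 j' (by omega)

/-- Two lines which cross have ordered values, the markers being read on the axis they share. -/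
theorem cross_ord {ι α : Type} {h : Mid k} {mk : α → Mid k} {letter : Mid k → Option α}
    (hinj : Function.Injective mk) (hne : ∀ a, mk a ≠ h) (hlet : ∀ a, letter (mk a) = some a)
    (z : ℕ → Option (Mid k)) {i₀ ja jb : ℕ} {R : ι → ℕ} {σ : ι → ℕ → α} {e : ι → Option α}
    {a b : ι} (hRa : R a = i₀ + ja) (hRb : R b = i₀ + jb) (hlow : ∀ l < i₀, σ a l = σ b l)
    (za : ∀ j < ja, z j = some (mk (σ a (i₀ + j))))
    (zb : ∀ j < jb, z j = some (mk (σ b (i₀ + j)))) (zh : z jb = some h)
    (hh : (Tower.relTop h letter (z ja) (z (ja + 1))).Holds (e a) (e b)) : Ord R σ e a b := by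
  have hle : ja ≤ jb := not_lt.1 fun hlt => by
    rw [za jb hlt] at zh
    exact hne _ (Option.some.inj zh)
  refine ⟨by omega, fun l hl => ?_, fun he => ?_, fun he => ?_, fun hlt hs => ?_⟩
  · by_cases h0 : l < i₀
    · exact hlow l h0
    · have e1 := za (l - i₀) (by omega)
      rw [zb (l - i₀) (by omega), Nat.add_sub_cancel' (Nat.not_lt.1 h0)] at e1
      exact (hinj (Option.some.inj e1)).symm
  · obtain rfl : ja = jb := by omega
    rw [zh] at hh
    simpa [Tower.relTop, Rel.Holds] using hh
  · obtain rfl : jb = ja + 1 := by omega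
    rw [zb ja (by omega), zh] at hh
    simpa [Tower.relTop, Rel.Holds, hne, hlet, hRa] using hh
  · have hlt' : ja < jb := by omega
    rw [zb ja hlt'] at hh
    simp only [Tower.relTop, if_neg (hne _), hlet] at hh
    rw [← hRa] at hh
    split at hh
    · exact hh.2 hs
    · exact hh hs

/-- The letter of a symbol, if it carries one. -/
def fullL (o : Option (Mid k)) : Full k := (o.bind Tower.fullOf).getD fun _ => false

/-- The padded letter of a symbol, if it carries one. -/
def padL (o : Option (Mid k)) : Bool := (o.bind Tower.padOf).getD false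

lemma KeepE.letters {z : Fin 3 → Option (Mid k)} {i : Fin 3} (h : KeepE z i) :
    z i = some (.full (fullL (z i))) ∧ z (i + 1) = some (.full (fullL (z i))) := by
  obtain ⟨d, h1, h2⟩ := h
  simp [h1, h2, fullL, Tower.fullOf]

lemma KeepP.letters {z : Fin 3 → Option (Mid k)} {i : Fin 3} (h : KeepP z i) :
    z i = some (.pad (padL (z i))) ∧ z (i + 1) = some (.pad (padL (z i))) := by
  obtain ⟨d, h1, h2⟩ := h
  simp [h1, h2, padL, Tower.padOf]

lemma KeepB.letters {z : Fin 3 → Option (Mid k)} {s : Option (Fin k)} (h : KeepB z s) :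
    z 0 = some (.full (fullL (z 0))) ∧ z 1 = some (.pad (fullL (z 0) s)) := by
  obtain ⟨d, h1, h2⟩ := h
  simp [h1, h2, fullL, Tower.fullOf]

/-! ### Symbols of the new tower -/

section Built

variable {T T' : Tower k em} {P : Plan k} (hB : Built T P T')

include hB

lemma zs_high {v : Fin 3 → ℤ} {i : Fin 3} (hv : Joined T v P.Q i) {m : ℕ} (hm : P.Q < m) :
    T'.zs v m i = col T P m i := by
  have h : T'.tile v P.Q i = T'.tile 0 P.Q i := by
    rw [(zs_low hB.low v _ le_rfl).2, (zs_low hB.low 0 _ le_rfl).2]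
    exact hv
  rw [zs_merge T' h hm.le, hB.high m hm]

lemma zs_top {v : Fin 3 → ℤ} {i : Fin 3} (hv : Joined T v P.Q i) :
    T'.zs v P.Q i = T.zs 0 P.Q i := by
  rw [(zs_low hB.low v _ le_rfl).1]
  exact zs_merge T hv le_rfl

lemma full_below {v : Fin 3 → ℤ} {i : Fin 3} (hv : Joined T v P.Q i) (hf : FullAbove T P.Q i)
    (hlow : ∀ m < P.Q, ∃ d, T.zs v m i = some (.full d)) {m : ℕ} (hm : m < P.i₀) :
    ∃ d, T'.zs v m i = some (.full d) := by
  rcases lt_trichotomy m P.Q with h | rfl | h
  · rw [(zs_low hB.low v m h.le).1]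
    exact hlow m h
  · rw [zs_top hB hv]
    exact hf _ le_rfl
  · rw [zs_high hB hv h, col_full hf hm]
    exact ⟨_, rfl⟩

lemma pad_below {v : Fin 3 → ℤ} {i : Fin 3} (hv : Joined T v P.Q i) (hf : PadAbove T P.Q i)
    (hlow : ∀ m < P.Q, ∃ d, T.zs v m i = some (.pad d)) {m : ℕ} (hm : m < P.i₀) :
    ∃ d, T'.zs v m i = some (.pad d) := by
  rcases lt_trichotomy m P.Q with h | rfl | h
  · rw [(zs_low hB.low v m h.le).1]
    exact hlow m h
  · rw [zs_top hB hv]
    exact hf _ le_rfl
  · rw [zs_high hB hv h, col_pad hf hm]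
    exact ⟨_, rfl⟩

lemma zs_list (hQi : P.Q < P.i₀) {v : Fin 3 → ℤ} {i : Fin 3} (hv : Joined T v P.Q i)
    (hw : ¬(i = 2 ∧ AboveW T P.Q)) (j : ℕ) : T'.zs v (P.i₀ + j) i = dig P.wit j i := by
  rw [zs_high hB hv (by omega), col_wit hw (by omega), Nat.add_sub_cancel_left]
  rfl

/-- A full line at a joined cell has its marker in the list. -/
lemma mark_full (hQi : P.Q < P.i₀) {v : Fin 3 → ℤ} {i : Fin 3} (hv : Joined T v P.Q i)
    (hf : FullAbove T P.Q i) (hlow : ∀ m < P.Q, ∃ d, T.zs v m i = some (.full d)) {R j : ℕ}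
    (hR : T'.zs v R i = some .hash) (hbelow : ∀ m < R, ∃ d, T'.zs v m i = some (.full d))
    (hj : dig P.wit j i = some .hash) (hjb : ∀ j' < j, ∃ d, dig P.wit j' i = some (.full d)) :
    R = P.i₀ + j := by
  have h1 : P.i₀ ≤ R := not_lt.1 fun hlt => by
    obtain ⟨d, e⟩ := full_below hB hv hf hlow hlt
    rw [hR] at e
    cases e
  obtain ⟨q, rfl⟩ := Nat.exists_eq_add_of_le h1
  have hz := zs_list hB hQi hv hf.not_word
  rcases lt_trichotomy q j with h | rfl | h
  · obtain ⟨d, e⟩ := hjb q h
    rw [← hz, hR] at e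
    cases e
  · rfl
  · obtain ⟨d, e⟩ := hbelow (P.i₀ + j) (by omega)
    rw [hz, hj] at e
    cases e

/-- A padded line at a joined cell has its marker in the list. -/
lemma mark_pad (hQi : P.Q < P.i₀) {v : Fin 3 → ℤ} {i : Fin 3} (hv : Joined T v P.Q i)
    (hf : PadAbove T P.Q i) (hlow : ∀ m < P.Q, ∃ d, T.zs v m i = some (.pad d)) {R j : ℕ}
    (hR : T'.zs v R i = some .phash) (hbelow : ∀ m < R, ∃ d, T'.zs v m i = some (.pad d))
    (hj : dig P.wit j i = some .phash) (hjb : ∀ j' < j, ∃ d, dig P.wit j' i = some (.pad d)) :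
    R = P.i₀ + j := by
  have h1 : P.i₀ ≤ R := not_lt.1 fun hlt => by
    obtain ⟨d, e⟩ := pad_below hB hv hf hlow hlt
    rw [hR] at e
    cases e
  obtain ⟨q, rfl⟩ := Nat.exists_eq_add_of_le h1
  have hz := zs_list hB hQi hv hf.not_word
  rcases lt_trichotomy q j with h | rfl | h
  · obtain ⟨d, e⟩ := hjb q h
    rw [← hz, hR] at e
    cases e
  · rfl
  · obtain ⟨d, e⟩ := hbelow (P.i₀ + j) (by omega)
    rw [hz, hj] at e
    cases e

end Built

end Vale.Agent.P193.W4.Coset.Realise
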