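import Vale.Agent.P193.W4.Coset.Fold
import Vale.Agent.P193.W4.Tower.Build

/-!
P193, module W4 B, realisation: which digits pass a fold on unchanged, and when the folds of two
cells with the same digits on a range of levels are equal at the bottom of the range.
-/

namespace Vale.Agent.P193.W4.Coset.Realise

variable {k : ℕ} {em : ℕ → Option (List (Full k))}

/-! ### Digits that keep a fold -/

/-- The digits keep a line of kind `i`. -/
def KeepE (z : Fin 3 → Option (Mid k)) (i : Fin 3) : Prop :=
  ∃ d, z i = some (.full d) ∧ z (i + 1) = some (.full d)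

/-- The digits keep a projection line of kind `i`. -/
def KeepP (z : Fin 3 → Option (Mid k)) (i : Fin 3) : Prop :=
  ∃ b, z i = some (.pad b) ∧ z (i + 1) = some (.pad b)

/-- The digits keep a bridge of the track `s`. -/
def KeepB (z : Fin 3 → Option (Mid k)) (s : Option (Fin k)) : Prop :=
  ∃ d, z 0 = some (.full d) ∧ z 1 = some (.pad (d s))

/-- The digits pass a word on. -/
def KeepW (z : Fin 3 → Option (Mid k)) : Prop := z 2 = some .pass

/-- The digits keep a match. -/
def KeepH (z : Fin 3 → Option (Mid k)) : Prop := KeepW z ∧ ∃ d, z 0 = some (.full d)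

section Step

variable {f f' : Flags k} {z : Fin 3 → Option (Mid k)} {i : Fin 3}

lemma keepE_step (h : KeepE z i) :
    (f.step z).eq i = f.eq i ∧
      (f.step z).rel i = if f.eq i = true then f.rel i else .apart := by
  obtain ⟨d, h1, h2⟩ := h
  simp [Flags.step, h1, h2]

lemma keepP_step (h : KeepP z i) :
    (f.step z).peq i = f.peq i ∧
      (f.step z).prel i = if f.peq i = true then f.prel i else .apart := by
  obtain ⟨d, h1, h2⟩ := h
  simp [Flags.step, h1, h2]

lemma keepB_step {s : Option (Fin k)} (h : KeepB z s) : (f.step z).br s = f.br s := by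
  obtain ⟨d, h1, h2⟩ := h
  simp [Flags.step, h1, h2]

lemma stepE_congr (hw : f.wasH (i + 1) = f'.wasH (i + 1))
    (h : (f.eq i = f'.eq i ∧ f.rel i = f'.rel i) ∨ ¬KeepE z i) :
    (f.step z).eq i = (f'.step z).eq i ∧ (f.step z).rel i = (f'.step z).rel i := by
  rcases h with ⟨h1, h2⟩ | h
  · simp [Flags.step, h1, h2, hw]
  · rcases hz : z i with _ | m
    · simp [Flags.step, hz]
    cases m with
    | full d =>
      have hne : z (i + 1) ≠ some (.full d) := fun e => h ⟨d, hz, e⟩
      simp [Flags.step, hz, hne]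
    | _ => simp [Flags.step, hz, hw]

lemma stepP_congr (hw : f.wasP (i + 1) = f'.wasP (i + 1))
    (h : (f.peq i = f'.peq i ∧ f.prel i = f'.prel i) ∨ ¬KeepP z i) :
    (f.step z).peq i = (f'.step z).peq i ∧ (f.step z).prel i = (f'.step z).prel i := by
  rcases h with ⟨h1, h2⟩ | h
  · simp [Flags.step, h1, h2, hw]
  · rcases hz : z i with _ | m
    · simp [Flags.step, hz]
    cases m with
    | pad b =>
      have hne : z (i + 1) ≠ some (.pad b) := fun e => h ⟨b, hz, e⟩
      simp [Flags.step, hz, hne]
    | _ => simp [Flags.step, hz, hw]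

lemma stepB_congr {s : Option (Fin k)} (h : f.br s = f'.br s ∨ ¬KeepB z s) :
    (f.step z).br s = (f'.step z).br s := by
  rcases h with h | h
  · simp [Flags.step, h]
  · rcases hz : z 0 with _ | m
    · simp [Flags.step, hz]
    cases m with
    | full d =>
      have hne : z 1 ≠ some (.pad (d s)) := fun e => h ⟨d, hz, e⟩
      simp [Flags.step, hz, hne]
    | _ => simp [Flags.step, hz]

lemma stepW_congr {n : ℕ} {w w' : Option (Word k)} (h : w = w' ∨ ¬KeepW z) :
    wordStep em n w (z 2) = wordStep em n w' (z 2) := by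
  rcases h with h | h
  · rw [h]
  · rcases hz : z 2 with _ | m
    · rfl
    cases m with
    | pass => exact absurd hz h
    | _ => rfl

lemma stepH_congr {n : ℕ} {s s' : St k} (hw : s.word = s'.word) (h : s.hit = s'.hit ∨ ¬KeepH z) :
    (s.step em n z).hit = (s'.step em n z).hit := by
  simp only [St.step, hw]
  rcases h with h | h
  · rw [h]
  · rcases hz2 : z 2 with _ | m2
    · simp [matchStep, hz2]
    rcases hz0 : z 0 with _ | m0
    · cases m2 <;> simp [matchStep, hz2, hz0]
    cases m0 with
    | full d =>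
      cases m2 with
      | pass => exact absurd ⟨hz2, d, hz0⟩ h
      | _ => simp [matchStep, hz2, hz0]
    | _ => cases m2 <;> simp [matchStep, hz2, hz0]

end Step

/-- An absent line has no relation. -/
lemma Reach.apart {f : Flags k} (hf : f.Reach) :
    ∀ i, (f.eq i = false → f.rel i = .apart) ∧ (f.peq i = false → f.prel i = .apart) := by
  induction hf with
  | off => intro i; simp [Flags.off]
  | step z _ ih =>
    intro i
    constructor
    · intro h
      simp only [Flags.step] at h ⊢
      rcases hz : z i with _ | m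
      · rfl
      cases m with
      | full d => simp only [hz] at h ⊢; simp [h]
      | hash => simp [hz] at h
      | _ => rfl
    · intro h
      simp only [Flags.step] at h ⊢
      rcases hz : z i with _ | m
      · rfl
      cases m with
      | pad d => simp only [hz] at h ⊢; simp [h]
      | phash => simp [hz] at h
      | _ => rfl

/-- The digits of which a reachable state is the fold, lowest level first. -/
lemma Reach.exists_list {f : Flags k} (hf : f.Reach) :
    ∃ zs : List (Fin 3 → Option (Mid k)), zs.foldr (fun z f => f.step z) Flags.off = f := by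
  induction hf with
  | off => exact ⟨[], rfl⟩
  | step z _ ih =>
    obtain ⟨zs, rfl⟩ := ih
    exact ⟨z :: zs, rfl⟩

/-! ### Equal digits on a range of levels -/

/-- Induction down a range of levels with a level at which nothing is needed from above. -/
lemma down {P q : ℕ → Prop} {n Q : ℕ} (hnQ : n ≤ Q)
    (hstep : ∀ m, n ≤ m → m < Q → P (m + 1) ∨ q m → P m)
    (h : (∃ m, n ≤ m ∧ m < Q ∧ q m) ∨ P Q) : P n := by
  have key : ∀ M, n ≤ M → M ≤ Q → P M → P n := by
    intro M hM
    induction M, hM using Nat.le_induction with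
    | base => exact fun _ hp => hp
    | succ M hM ih => exact fun hQ hp => ih (by omega) (hstep M hM (by omega) (.inl hp))
  rcases h with ⟨m, h1, h2, h3⟩ | h
  · exact key m h1 h2.le (hstep m h1 h2 (.inr h3))
  · exact key Q hnQ le_rfl h

variable {T T' : Tower k em} {v v' : Fin 3 → ℤ} {n Q : ℕ}

/-- The marker bits are the digits. -/
lemma was_eq (T : Tower k em) (v : Fin 3 → ℤ) (m : ℕ) (i : Fin 3) :
    (T.stAt v m).flags.wasH i = decide (T.zs v m i = some .hash) ∧
      (T.stAt v m).flags.wasP i = decide (T.zs v m i = some .phash) := by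
  rw [T.flags_step]
  exact ⟨rfl, rfl⟩

section Range

variable (hnQ : n ≤ Q) (hd : ∀ m, n ≤ m → m ≤ Q → T.zs v m = T'.zs v' m)

include hnQ hd

lemma syncE (i : Fin 3)
    (h : (∃ m, n ≤ m ∧ m < Q ∧ ¬KeepE (T.zs v m) i) ∨
      ((T.stAt v Q).flags.eq i = (T'.stAt v' Q).flags.eq i ∧
        (T.stAt v Q).flags.rel i = (T'.stAt v' Q).flags.rel i)) :
    (T.stAt v n).flags.eq i = (T'.stAt v' n).flags.eq i ∧
      (T.stAt v n).flags.rel i = (T'.stAt v' n).flags.rel i := by
  refine down (P := fun m => (T.stAt v m).flags.eq i = (T'.stAt v' m).flags.eq i ∧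
    (T.stAt v m).flags.rel i = (T'.stAt v' m).flags.rel i) hnQ (fun m h1 h2 hm => ?_) h
  rw [T.flags_step v m, T'.flags_step v' m, ← hd m h1 h2.le]
  refine stepE_congr ?_ hm
  rw [(was_eq T v _ _).1, (was_eq T' v' _ _).1, hd (m + 1) (by omega) h2]

lemma syncP (i : Fin 3)
    (h : (∃ m, n ≤ m ∧ m < Q ∧ ¬KeepP (T.zs v m) i) ∨
      ((T.stAt v Q).flags.peq i = (T'.stAt v' Q).flags.peq i ∧
        (T.stAt v Q).flags.prel i = (T'.stAt v' Q).flags.prel i)) :
    (T.stAt v n).flags.peq i = (T'.stAt v' n).flags.peq i ∧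
      (T.stAt v n).flags.prel i = (T'.stAt v' n).flags.prel i := by
  refine down (P := fun m => (T.stAt v m).flags.peq i = (T'.stAt v' m).flags.peq i ∧
    (T.stAt v m).flags.prel i = (T'.stAt v' m).flags.prel i) hnQ (fun m h1 h2 hm => ?_) h
  rw [T.flags_step v m, T'.flags_step v' m, ← hd m h1 h2.le]
  refine stepP_congr ?_ hm
  rw [(was_eq T v _ _).2, (was_eq T' v' _ _).2, hd (m + 1) (by omega) h2]

lemma syncB (s : Option (Fin k))
    (h : (∃ m, n ≤ m ∧ m < Q ∧ ¬KeepB (T.zs v m) s) ∨
      (T.stAt v Q).flags.br s = (T'.stAt v' Q).flags.br s) :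
    (T.stAt v n).flags.br s = (T'.stAt v' n).flags.br s := by
  refine down (P := fun m => (T.stAt v m).flags.br s = (T'.stAt v' m).flags.br s) hnQ
    (fun m h1 h2 hm => ?_) h
  rw [T.flags_step v m, T'.flags_step v' m, ← hd m h1 h2.le]
  exact stepB_congr hm

lemma syncW
    (h : (∃ m, n ≤ m ∧ m < Q ∧ ¬KeepW (T.zs v m)) ∨
      (T.stAt v Q).word = (T'.stAt v' Q).word) :
    (T.stAt v n).word = (T'.stAt v' n).word := by
  refine down (P := fun m => (T.stAt v m).word = (T'.stAt v' m).word) hnQ
    (fun m h1 h2 hm => ?_) h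
  rw [T.stAt_step v m, T'.stAt_step v' m, ← hd m h1 h2.le]
  exact stepW_congr hm

lemma syncH (hW : ∀ m, n < m → m ≤ Q → (T.stAt v m).word = (T'.stAt v' m).word)
    (h : (∃ m, n ≤ m ∧ m < Q ∧ ¬KeepH (T.zs v m)) ∨
      (T.stAt v Q).hit = (T'.stAt v' Q).hit) :
    (T.stAt v n).hit = (T'.stAt v' n).hit := by
  -- only the words up to the lowest break matter, and those above it are given
  refine down (P := fun m => (T.stAt v m).hit = (T'.stAt v' m).hit) hnQ
    (fun m h1 h2 hm => ?_) h
  rw [T.stAt_step v m, T'.stAt_step v' m, ← hd m h1 h2.le]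
  exact stepH_congr (hW (m + 1) (by omega) h2) hm

end Range

/-- States are equal when all folds are. -/
lemma st_ext {s s' : St k}
    (hE : ∀ i, s.flags.eq i = s'.flags.eq i ∧ s.flags.rel i = s'.flags.rel i)
    (hP : ∀ i, s.flags.peq i = s'.flags.peq i ∧ s.flags.prel i = s'.flags.prel i)
    (hB : ∀ t, s.flags.br t = s'.flags.br t) (hH : s.flags.wasH = s'.flags.wasH)
    (hQ : s.flags.wasP = s'.flags.wasP) (hW : s.word = s'.word) (hM : s.hit = s'.hit) :
    s = s' := by
  obtain ⟨⟨e1, e2, e3, e4, e5, e6, e7⟩, w, t⟩ := s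
  obtain ⟨⟨f1, f2, f3, f4, f5, f6, f7⟩, w', t'⟩ := s'
  obtain rfl : e1 = f1 := funext fun i => (hE i).1
  obtain rfl : e6 = f6 := funext fun i => (hE i).2
  obtain rfl : e2 = f2 := funext fun i => (hP i).1
  obtain rfl : e7 = f7 := funext fun i => (hP i).2
  obtain rfl : e3 = f3 := funext hB
  obtain rfl : e4 = f4 := hH
  obtain rfl : e5 = f5 := hQ
  obtain rfl : w = w' := hW
  obtain rfl : t = t' := hM
  rfl

/-! ### Where a fold comes from -/

variable (T) (v)

/-- A present line has a marker above, or is kept for ever. -/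
lemma eq_cases {i : Fin 3} (h : (T.stAt v n).flags.eq i = true) :
    (∃ R, n ≤ R ∧ T.zs v R i = some .hash ∧ ∀ m, n ≤ m → m < R → KeepE (T.zs v m) i) ∨
      ∀ m, n ≤ m → KeepE (T.zs v m) i := by
  have key : ∀ j, (∃ R, n ≤ R ∧ T.zs v R i = some .hash ∧
      ∀ m, n ≤ m → m < R → KeepE (T.zs v m) i) ∨
      ((T.stAt v (n + j)).flags.eq i = true ∧ ∀ m, n ≤ m → m < n + j → KeepE (T.zs v m) i) := by
    intro j
    induction j with
    | zero => exact .inr ⟨h, fun m h1 h2 => by omega⟩
    | succ j ih =>
      rcases ih with ih | ⟨he, hk⟩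
      · exact .inl ih
      rw [T.flags_step] at he
      by_cases hh : T.zs v (n + j) i = some .hash
      · exact .inl ⟨n + j, by omega, hh, hk⟩
      have hK : KeepE (T.zs v (n + j)) i := by
        simp only [Flags.step] at he
        rcases hz : T.zs v (n + j) i with _ | m
        · simp [hz] at he
        cases m with
        | full d => exact ⟨d, hz, by simp [hz] at he; exact he.2⟩
        | hash => exact absurd hz hh
        | _ => simp [hz] at he
      rw [(keepE_step hK).1] at he
      refine .inr ⟨he, fun m h1 h2 => ?_⟩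
      rcases (show m < n + j ∨ m = n + j by omega) with h3 | rfl
      exacts [hk m h1 h3, hK]
  by_cases hall : ∀ m, n ≤ m → KeepE (T.zs v m) i
  · exact .inr hall
  push Not at hall
  obtain ⟨m, h1, h2⟩ := hall
  rcases key (m + 1 - n) with h3 | ⟨-, h3⟩
  · exact .inl h3
  · exact absurd (h3 m h1 (by omega)) h2

/-- A present projection line has a marker above, or is kept for ever. -/
lemma peq_cases {i : Fin 3} (h : (T.stAt v n).flags.peq i = true) :
    (∃ R, n ≤ R ∧ T.zs v R i = some .phash ∧ ∀ m, n ≤ m → m < R → KeepP (T.zs v m) i) ∨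
      ∀ m, n ≤ m → KeepP (T.zs v m) i := by
  have key : ∀ j, (∃ R, n ≤ R ∧ T.zs v R i = some .phash ∧
      ∀ m, n ≤ m → m < R → KeepP (T.zs v m) i) ∨
      ((T.stAt v (n + j)).flags.peq i = true ∧ ∀ m, n ≤ m → m < n + j → KeepP (T.zs v m) i) := by
    intro j
    induction j with
    | zero => exact .inr ⟨h, fun m h1 h2 => by omega⟩
    | succ j ih =>
      rcases ih with ih | ⟨he, hk⟩
      · exact .inl ih
      rw [T.flags_step] at he
      by_cases hh : T.zs v (n + j) i = some .phash
      · exact .inl ⟨n + j, by omega, hh, hk⟩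
      have hK : KeepP (T.zs v (n + j)) i := by
        simp only [Flags.step] at he
        rcases hz : T.zs v (n + j) i with _ | m
        · simp [hz] at he
        cases m with
        | pad d => exact ⟨d, hz, by simp [hz] at he; exact he.2⟩
        | phash => exact absurd hz hh
        | _ => simp [hz] at he
      rw [(keepP_step hK).1] at he
      refine .inr ⟨he, fun m h1 h2 => ?_⟩
      rcases (show m < n + j ∨ m = n + j by omega) with h3 | rfl
      exacts [hk m h1 h3, hK]
  by_cases hall : ∀ m, n ≤ m → KeepP (T.zs v m) i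
  · exact .inr hall
  push Not at hall
  obtain ⟨m, h1, h2⟩ := hall
  rcases key (m + 1 - n) with h3 | ⟨-, h3⟩
  · exact .inl h3
  · exact absurd (h3 m h1 (by omega)) h2

/-- A present bridge has its markers above, or is kept for ever. -/
lemma br_cases {s : Option (Fin k)} (h : (T.stAt v n).flags.br s = true) :
    (∃ R, n ≤ R ∧ (T.zs v R 0 = some .hash ∧ T.zs v R 1 = some .phash) ∧
      ∀ m, n ≤ m → m < R → KeepB (T.zs v m) s) ∨
      ∀ m, n ≤ m → KeepB (T.zs v m) s := by
  have key : ∀ j, (∃ R, n ≤ R ∧ (T.zs v R 0 = some .hash ∧ T.zs v R 1 = some .phash) ∧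
      ∀ m, n ≤ m → m < R → KeepB (T.zs v m) s) ∨
      ((T.stAt v (n + j)).flags.br s = true ∧ ∀ m, n ≤ m → m < n + j → KeepB (T.zs v m) s) := by
    intro j
    induction j with
    | zero => exact .inr ⟨h, fun m h1 h2 => by omega⟩
    | succ j ih =>
      rcases ih with ih | ⟨he, hk⟩
      · exact .inl ih
      rw [T.flags_step] at he
      by_cases hh : T.zs v (n + j) 0 = some .hash
      · refine .inl ⟨n + j, by omega, ⟨hh, ?_⟩, hk⟩
        simpa [Flags.step, hh] using he
      have hK : KeepB (T.zs v (n + j)) s := by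
        simp only [Flags.step] at he
        rcases hz : T.zs v (n + j) 0 with _ | m
        · simp [hz] at he
        cases m with
        | full d => exact ⟨d, hz, by simp [hz] at he; exact he.2⟩
        | hash => exact absurd hz hh
        | _ => simp [hz] at he
      rw [keepB_step hK] at he
      refine .inr ⟨he, fun m h1 h2 => ?_⟩
      rcases (show m < n + j ∨ m = n + j by omega) with h3 | rfl
      exacts [hk m h1 h3, hK]
  by_cases hall : ∀ m, n ≤ m → KeepB (T.zs v m) s
  · exact .inr hall
  push Not at hall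
  obtain ⟨m, h1, h2⟩ := hall
  rcases key (m + 1 - n) with h3 | ⟨-, h3⟩
  · exact .inl h3
  · exact absurd (h3 m h1 (by omega)) h2

end Vale.Agent.P193.W4.Coset.Realise
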