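import Vale.Agent.P193.W4.Coset.Realise.Star

/-!
P193, module W4 B, realisation: the list of digits put above the block, and what each case has to
give.
-/

namespace Vale.Agent.P193.W4.Coset.Realise

open Vale.Agent.P193.Action Filter

variable {k : ℕ} {em : ℕ → Option (List (Full k))}

/-- The fold of the list is that of the origin on what is kept above `Q`; a match kept for ever
finds a marker in it. -/
structure WitOK (T : Tower k em) (Q : ℕ) (wit : List (Fin 3 → Option (Mid k))) : Prop where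
  eqs : ∀ i, AboveE T Q i →
    (folded wit).eq i = (T.stAt 0 Q).flags.eq i ∧ (folded wit).rel i = (T.stAt 0 Q).flags.rel i
  peqs : ∀ i, AboveP T Q i →
    (folded wit).peq i = (T.stAt 0 Q).flags.peq i ∧
      (folded wit).prel i = (T.stAt 0 Q).flags.prel i
  brs : ∀ s, AboveB T Q s → (folded wit).br s = (T.stAt 0 Q).flags.br s
  marker : AboveH T Q → (T.stAt 0 Q).hit = true →
    ∃ j, dig wit j 0 = some .hash ∧ ∀ j' < j, ∃ d, dig wit j' 0 = some (.full d)

theorem exists_wit (T : Tower k em) (Q : ℕ) : ∃ wit, WitOK T Q wit := by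
  classical
  have hr : (T.stAt 0 Q).flags.Reach := T.reach Q (T.tile 0 Q)
  by_cases hc : AboveH T Q ∧ ¬((AboveE T Q 0 ∧ (T.stAt 0 Q).flags.eq 0 = true) ∨
      ∃ s, AboveB T Q s ∧ (T.stAt 0 Q).flags.br s = true)
  · -- a marker on the word's letters alone
    obtain ⟨hH, hno⟩ := hc
    push Not at hno
    obtain ⟨hnE, hnB⟩ := hno
    have hW : AboveW T Q := fun m hm => (hH m hm).1
    have hF : FullAbove T Q 0 := fun m hm => (hH m hm).2
    have hz : ∀ i : Fin 3, i = 0 ∨ i + 1 = 0 ∨ i + 1 = 2 := by decide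
    refine ⟨[![some (.full fun _ => false), none, none], ![some .hash, none, none]],
      fun i hi => ?_, fun i hi => ?_, fun s hs => ?_, fun _ _ => ⟨1, rfl, fun j hj => ?_⟩⟩
    · have h2 : ∀ {j}, FullAbove T Q j → j ≠ 2 := fun hf e => hf.not_word ⟨e, hW⟩
      obtain rfl := kind_low (i := i) hW (h2 hi.full.1) (h2 hi.full.2)
      have he := Bool.eq_false_iff.2 (hnE hi)
      rw [he, (Reach.apart hr 0).1 he]
      simp [folded, Flags.step, Flags.off]
    · exfalso
      have h2 : ∀ {j}, PadAbove T Q j → j ≠ 2 := fun hf e => hf.not_word ⟨e, hW⟩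
      obtain rfl := kind_low (i := i) hW (h2 hi.pad.1) (h2 hi.pad.2)
      exact hF.not_pad hi.pad.1
    · rw [Bool.eq_false_iff.2 (hnB s hs)]
      simp [folded, Flags.step, Flags.off]
    · obtain rfl : j = 0 := by omega
      exact ⟨_, rfl⟩
  obtain ⟨wit, hw⟩ := Reach.exists_list hr
  change folded wit = (T.stAt 0 Q).flags at hw
  refine ⟨wit, fun i _ => ?_, fun i _ => ?_, fun s _ => ?_, fun hH _ => ?_⟩
  · rw [hw]; exact ⟨rfl, rfl⟩
  · rw [hw]; exact ⟨rfl, rfl⟩
  · rw [hw]
  rcases Decidable.not_not.1 fun hn => hc ⟨hH, hn⟩ with ⟨-, he⟩ | ⟨s, -, he⟩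
  · obtain ⟨j, h1, h2, -⟩ := folded_mark 0 wit (hw ▸ he)
    exact ⟨j, h1, fun j' hj => (h2 j' hj).imp fun _ e => e.1⟩
  · obtain ⟨j, h1, h2⟩ := folded_bmark s wit (hw ▸ he)
    exact ⟨j, h1.1, fun j' hj => (h2 j' hj).imp fun _ e => e.1⟩

lemma starless_inj {c c' : ℕ → Full k} {m l : ℕ} (h : starless c m = starless c' m) (hl : l < m) :
    c l = c' l := by
  have := congrArg (fun W => W[l]?) h
  simpa [starless, List.getElem?_ofFn, hl] using this

lemma take_starless (c : ℕ → Full k) {m n : ℕ} (h : m ≤ n) :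
    (starless c n).take m = starless c m := by
  refine List.ext_getElem? fun l => ?_
  simp only [List.getElem?_take, starless, List.getElem?_ofFn]
  by_cases hl : l < m
  · rw [if_pos hl, dif_pos (show l < n by omega), dif_pos hl]
  · rw [if_neg hl, dif_neg hl]

variable {K : Type} [Group K] {g : Fin k → K} (E : EffAction K g) (T : Tower k em)

/-- A word passed on for ever without stars is genuine, or is bad below `Q + 1`. -/
def GenOK (Q : ℕ) : Prop :=
  ∀ cw : ℕ → Full k, (∀ m, Q ≤ m → (T.stAt 0 m).word = some (starless cw m)) →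
    (∀ n, Genuine E (List.ofFn fun l : Fin n => cw l)) ∨
      ¬Genuine E (List.ofFn fun l : Fin (Q + 1) => cw l)

lemma genuine_mono {n m : ℕ} {f f' : ℕ → Full k} (hnm : n ≤ m) (h : ∀ l < n, f' l = f l)
    (hg : Genuine E (List.ofFn fun l : Fin m => f' l)) :
    Genuine E (List.ofFn fun l : Fin n => f l) := by
  obtain ⟨y, hy, hw⟩ := hg
  refine ⟨y, hy, fun i hi => ?_⟩
  simp only [List.length_ofFn] at hi
  rw [hw i (by simp; omega), List.getElem_ofFn, List.getElem_ofFn]
  exact h i hi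

theorem eventually_genOK : ∀ᶠ Q in atTop, GenOK E T Q := by
  by_cases h : ∃ (cw : ℕ → Full k) (Q₀ n : ℕ),
      (∀ m, Q₀ ≤ m → (T.stAt 0 m).word = some (starless cw m)) ∧
      ¬Genuine E (List.ofFn fun l : Fin n => cw l)
  · obtain ⟨cw, Q₀, n, hw, hn⟩ := h
    refine eventually_atTop.2 ⟨max Q₀ n, fun Q hQ cw' hw' => .inr fun hg => hn ?_⟩
    refine genuine_mono E (show n ≤ Q + 1 by omega) (fun l hl => ?_) hg
    have e := hw Q (by omega)
    rw [hw' Q le_rfl] at e
    exact starless_inj (Option.some.inj e) (by omega)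
  · push Not at h
    exact Eventually.of_forall fun Q cw hw => .inl fun n => h cw Q n hw

variable (c : K → (Fin 3 → ℤ) → JCell k) (A : ℕ → Bool) (U : Finset (K × (Fin 3 → ℤ))) (Q : ℕ)
  (wit : List (Fin 3 → Option (Mid k)))

/-- What a case gives: the point of the action and the letters below the list. -/
def Fit : Prop :=
  ∃ y ∈ E.Y, ∃ (i₀ : ℕ) (d : ℕ → Full k) (b : ℕ → Bool), Q < i₀ ∧
    (∀ s, AboveB T Q s → (T.stAt 0 Q).flags.br s = true →
      ∀ m, Q < m → m < i₀ → d m s = b m) ∧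
    (∀ p ∈ U, ∀ l ≤ Q, codeAt E y p.1 l = codeAt E A p.1 l) ∧
    (∀ cw : ℕ → Full k, (∀ m, Q ≤ m → (T.stAt 0 m).word = some (starless cw m)) →
      AboveH T Q → (T.stAt 0 Q).hit = true →
      ¬Genuine E (List.ofFn fun l : Fin i₀ => if (l : ℕ) ≤ Q then cw l else d l)) ∧
    ∀ (L : ℕ) (fin : Option (Mid k)) (T' : Tower k em),
      Built T ⟨Q, i₀, L, d, b, wit, fin⟩ T' → Req E T c A T' y U

end Vale.Agent.P193.W4.Coset.Realise
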