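import Vale.Agent.P193.W4.Coset.Realise.Cells

/-!
P193, module W4 B, realisation: a word passed on for ever at the origin is absent, starred from
some level on, or free of stars; a match kept for ever follows the word.
-/

namespace Vale.Agent.P193.W4.Coset.Realise

open Filter

variable {k : ℕ} {em : ℕ → Option (List (Full k))}

/-- The entries of a padded word. -/
lemma padWord_getElem? (n : ℕ) (w : List (Full k)) (l : ℕ) :
    (padWord n w)[l]? = if l < n then some w[l]? else none := by
  simp only [padWord, List.getElem?_take]
  split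
  · by_cases hl : l < w.length
    · rw [List.getElem?_append_left (by simpa using hl)]
      simp [List.getElem?_eq_getElem hl]
    · rw [List.getElem?_append_right (by simpa using hl)]
      simp [List.getElem?_replicate, List.getElem?_eq_none (Nat.not_lt.1 hl)]
      omega
  · rfl

lemma topLetter_padWord (n : ℕ) (w : List (Full k)) : topLetter (some (padWord (n + 1) w)) = w[n]? := by
  have hlen : (padWord (n + 1) w).length = n + 1 := by simp [padWord]
  rw [topLetter, Option.bind_some, List.getLast?_eq_getElem?, hlen, Nat.add_sub_cancel,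
    padWord_getElem?, if_pos (Nat.lt_succ_self n)]
  rfl

lemma take_padWord {m n : ℕ} (h : m ≤ n) (w : List (Full k)) :
    (padWord n w).take m = padWord m w := by
  refine List.ext_getElem? fun l => ?_
  rw [List.getElem?_take, padWord_getElem?, padWord_getElem?]
  split <;> simp
  omega

/-- The word without stars with the letters `c`. -/
def starless (c : ℕ → Full k) (m : ℕ) : Word k := List.ofFn fun l : Fin m => some (c l)

lemma topLetter_starless (c : ℕ → Full k) (n : ℕ) :
    topLetter (some (starless c (n + 1))) = some (c n) := by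
  rw [topLetter, Option.bind_some, List.getLast?_eq_getElem?, starless, List.length_ofFn,
    Nat.add_sub_cancel, List.getElem?_ofFn, dif_pos (Nat.lt_succ_self n)]
  rfl

lemma padWord_starless {c : ℕ → Full k} {m : ℕ} {w : List (Full k)}
    (h : ∀ l < m, w[l]? = some (c l)) : padWord m w = starless c m := by
  refine List.ext_getElem? fun l => ?_
  rw [padWord_getElem?, starless, List.getElem?_ofFn]
  split
  · simp [h l ‹_›]
  · rfl

/-- What is passed on at the origin from the level `Q`. -/
inductive Passed (T : Tower k em) (Q : ℕ) : Prop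
  | none : (∀ m, Q ≤ m → (T.stAt 0 m).word = none) → Passed T Q
  | starred (w : List (Full k)) : w ≠ [] → w.length < Q →
      (∀ m, Q ≤ m → (T.stAt 0 m).word = some (padWord m w)) → Passed T Q
  | starless (c : ℕ → Full k) :
      (∀ m, Q ≤ m → (T.stAt 0 m).word = some (Realise.starless c m)) → Passed T Q

variable (T : Tower k em)

lemma word_pass {m : ℕ} (h : KeepW (T.zs 0 m)) :
    (T.stAt 0 m).word = (T.stAt 0 (m + 1)).word.map (List.take m) := by
  rw [T.stAt_step]
  simp [St.step, wordStep, show T.zs 0 m 2 = _ from h]

/-- Eventually it is known what is passed on. -/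
theorem eventually_passed : ∀ᶠ Q in atTop, AboveW T Q → Passed T Q := by
  classical
  by_cases hw : ∃ A, AboveW T A
  swap
  · exact Eventually.of_forall fun Q h => absurd ⟨Q, h⟩ hw
  obtain ⟨A, hA⟩ := hw
  rcases hA0 : (T.stAt 0 A).word with _ | W₀
  · refine eventually_atTop.2 ⟨A, fun Q hQ _ => .none fun m hm => ?_⟩
    have key : ∀ j, (T.stAt 0 (A + j)).word = none := by
      intro j
      induction j with
      | zero => exact hA0
      | succ j ih =>
        have h := word_pass T (hA (A + j) (by omega))
        rw [ih] at h
        exact Option.map_eq_none_iff.1 h.symm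
    simpa [show A + (m - A) = m by omega] using key (m - A)
  have hsome : ∀ m, A ≤ m → ∃ W, (T.stAt 0 m).word = some W := by
    intro m hm
    induction m, hm using Nat.le_induction with
    | base => exact ⟨_, hA0⟩
    | succ m hm ih =>
      obtain ⟨W, hW⟩ := ih
      rw [word_pass T (hA m hm)] at hW
      obtain ⟨W', hW', -⟩ := Option.map_eq_some_iff.1 hW
      exact ⟨W', hW'⟩
  choose! W hW using hsome
  have hlen : ∀ m, A ≤ m → (W m).length = m := fun m hm =>
    (T.wordOK m _ (W m) (hW m hm)).1
  have hstep : ∀ m, A ≤ m → W m = (W (m + 1)).take m := fun m hm => by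
    have h := word_pass T (hA m hm)
    rw [hW m hm, hW (m + 1) (by omega)] at h
    exact Option.some.inj h
  have hcoh : ∀ m M, A ≤ m → m ≤ M → ∀ l < m, (W M)[l]? = (W m)[l]? := by
    intro m M hm hM
    induction M, hM using Nat.le_induction with
    | base => exact fun l _ => rfl
    | succ M hM ih =>
      intro l hl
      rw [← ih l hl, hstep M (by omega), List.getElem?_take, if_pos (by omega)]
  let f : ℕ → Option (Full k) := fun l => ((W (max A (l + 1)))[l]?).join
  have hf : ∀ m, A ≤ m → ∀ l < m, (W m)[l]? = some (f l) := by
    intro m hm l hl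
    have hget : ∃ o, (W m)[l]? = some o :=
      ⟨_, List.getElem?_eq_getElem (by rw [hlen m hm]; exact hl)⟩
    obtain ⟨o, ho⟩ := hget
    have e := hcoh (max A (l + 1)) m (le_max_left _ _) (max_le hm hl) l (by omega)
    rw [ho] at e
    simp [f, ho, ← e]
  by_cases hall : ∀ l, (f l).isSome
  · refine eventually_atTop.2 ⟨A, fun Q hQ _ => .starless (fun l => (f l).get (hall l))
      fun m hm => ?_⟩
    rw [hW m (by omega)]
    refine congrArg some (List.ext_getElem? fun l => ?_)
    by_cases hl : l < m
    · rw [hf m (by omega) l hl, starless, List.getElem?_ofFn, dif_pos hl]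
      simp
    · rw [List.getElem?_eq_none (by rw [hlen m (by omega)]; omega),
        List.getElem?_eq_none (by simp [starless]; omega)]
  push Not at hall
  simp only [Bool.not_eq_true, Option.isSome_eq_false_iff,
    Option.isNone_iff_eq_none] at hall
  let n := Nat.find hall
  have hn : f n = none := Nat.find_spec hall
  have hlow : ∀ l < n, (f l).isSome := fun l hl => by
    simpa [Option.isSome_iff_ne_none] using Nat.find_min hall hl
  have hup : ∀ l, n ≤ l → f l = none ∧ 0 < n := by
    intro l hl
    let m := max A (l + 1)
    have hm : A ≤ m := le_max_left _ _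
    have hlm : l < m := le_max_right A (l + 1)
    have hnm : n < (W m).length := by rw [hlen m hm]; omega
    have e := hf m hm n (by omega)
    rw [List.getElem?_eq_getElem hnm, hn] at e
    obtain ⟨h0, h1⟩ := (T.wordOK m _ (W m) (hW m hm)).2 n hnm (Option.some.inj e)
    have e' := hf m hm l hlm
    rw [List.getElem?_eq_getElem (by rw [hlen m hm]; omega), h1 l _ hl] at e'
    exact ⟨(Option.some.inj e').symm, h0⟩
  let w : List (Full k) := List.ofFn fun l : Fin n => (f l).get (hlow l l.2)
  refine eventually_atTop.2 ⟨A + n + 1, fun Q hQ _ => .starred w ?_ (by simp [w]; omega)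
    fun m hm => ?_⟩
  · exact List.ne_nil_of_length_pos (by simpa [w] using (hup n le_rfl).2)
  rw [hW m (by omega)]
  refine congrArg some (List.ext_getElem? fun l => ?_)
  rw [padWord_getElem?]
  by_cases hl : l < m
  · rw [if_pos hl, hf m (by omega) l hl]
    by_cases hln : l < n
    · simp [w, hln]
    · simp [w, hln, (hup l (Nat.not_lt.1 hln)).1]
  · rw [if_neg hl, List.getElem?_eq_none (by rw [hlen m (by omega)]; omega)]

variable {T}

/-- A match kept for ever follows a word without stars. -/
theorem hit_above {Q : ℕ} (hH : AboveH T Q) (hit : (T.stAt 0 Q).hit = true) :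
    ∀ m, Q ≤ m → ∃ d, T.zs 0 m 0 = some (.full d) ∧ (T.stAt 0 m).hit = true ∧
      topLetter (T.stAt 0 (m + 1)).word = some d := by
  have key : ∀ m, Q ≤ m → (T.stAt 0 m).hit = true → ∃ d, T.zs 0 m 0 = some (.full d) ∧
      (T.stAt 0 (m + 1)).hit = true ∧ topLetter (T.stAt 0 (m + 1)).word = some d := by
    intro m hm h
    obtain ⟨h2, d, h0⟩ := hH m hm
    rw [T.stAt_step] at h
    simp only [St.step, matchStep, show T.zs 0 m 2 = _ from h2, h0, Bool.and_eq_true,
      decide_eq_true_eq] at h
    exact ⟨d, h0, h.1, h.2⟩
  have all : ∀ m, Q ≤ m → (T.stAt 0 m).hit = true := by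
    intro m hm
    induction m, hm using Nat.le_induction with
    | base => exact hit
    | succ m hm ih => exact (key m hm ih).choose_spec.2.1
  intro m hm
  obtain ⟨d, h0, -, h2⟩ := key m hm (all m hm)
  exact ⟨d, h0, all m hm, h2⟩

end Vale.Agent.P193.W4.Coset.Realise
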